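import Vale.Agent.P114.Entropy

/-!
# Definitions: random-walk entropy of a homogeneous system with one translation parameter
-/

namespace Vale.Agent.P114

variable {ι : Type*} [Fintype ι]

/-- The probability `p (w 0) * ... * p (w (n-1))` of a word. -/
noncomputable def wordWeight (p : ι → ℝ) {n : ℕ} (w : Fin n → ι) : ℝ := ∏ i, p (w i)

/-- The composition `φ_(w 0) ∘ ... ∘ φ_(w (n-1))` of the maps
`φ_i x = lam * x + a i + b i * t` along a word. -/
noncomputable def wordMap (a b : ι → ℤ) (lam t : ℝ) {n : ℕ} (w : Fin n → ι) : ℝ → ℝ :=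
  fun x => (List.ofFn w).foldr (fun i y => lam * y + ((a i : ℝ) + (b i : ℝ) * t)) x

/-- The entropy (natural logarithm) of the random composed map of `n` steps. -/
noncomputable def walkEntropy (a b : ι → ℤ) (p : ι → ℝ) (lam t : ℝ) (n : ℕ) : ℝ :=
  entropy (wordWeight p) (wordMap a b lam t (n := n))

/-- The random-walk entropy rate, the infimum over `n ≥ 1` of the entropy divided by `n`. -/
noncomputable def hRW (a b : ι → ℤ) (p : ι → ℝ) (lam t : ℝ) : ℝ :=
  ⨅ n : ℕ, walkEntropy a b p lam t (n + 1) / (n + 1)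

end Vale.Agent.P114
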