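import Mathlib

/-!
# Determinant bounds

A Hadamard inequality for Gram matrices and a lower bound for Gram matrices of integer origin.
-/

namespace Vale.Agent.P114

open Matrix

/-- A positive definite real matrix with unit diagonal has determinant at most one. -/
theorem det_le_one_of_diag_one {n : Type*} [Fintype n] [DecidableEq n] {G : Matrix n n ℝ}
    (hG : G.PosDef) (hd : ∀ i, G i i = 1) : G.det ≤ 1 := by
  have h1 := hG.1.det_eq_prod_eigenvalues
  have h2 := hG.1.trace_eq_sum_eigenvalues
  have htr : G.trace = Fintype.card n := by simp [Matrix.trace, hd]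
  simp only [RCLike.ofReal_real_eq_id, id_eq] at h1 h2
  have h3 : ∀ i, hG.1.eigenvalues i ≤ Real.exp (hG.1.eigenvalues i - 1) := fun i => by
    have := Real.add_one_le_exp (hG.1.eigenvalues i - 1)
    linarith
  calc G.det = ∏ i, hG.1.eigenvalues i := h1
    _ ≤ ∏ i, Real.exp (hG.1.eigenvalues i - 1) :=
        Finset.prod_le_prod (fun i _ => (hG.eigenvalues_pos i).le) (fun i _ => h3 i)
    _ = Real.exp (∑ i, (hG.1.eigenvalues i - 1)) := (Real.exp_sum _ _).symm
    _ = 1 := by
        rw [Finset.sum_sub_distrib, ← h2, htr]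
        simp

/-- Hadamard inequality: a positive definite real matrix has determinant at most the product of
its diagonal entries. -/
theorem det_le_prod_diag {n : Type*} [Fintype n] [DecidableEq n] {G : Matrix n n ℝ}
    (hG : G.PosDef) : G.det ≤ ∏ i, G i i := by
  have hpos : ∀ i, 0 < G i i := fun i => hG.diag_pos
  set d : n → ℝ := fun i => (Real.sqrt (G i i))⁻¹ with hddef
  have hd0 : ∀ i, 0 < d i := fun i => inv_pos.mpr (Real.sqrt_pos.mpr (hpos i))
  set D : Matrix n n ℝ := Matrix.diagonal d with hD
  have hinj : Function.Injective D.mulVec := by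
    intro x y hxy
    funext i
    have h := congrFun hxy i
    simp only [hD, Matrix.mulVec_diagonal] at h
    exact mul_left_cancel₀ (hd0 i).ne' h
  have hH : (Dᴴ * G * D).PosDef := hG.conjTranspose_mul_mul_same hinj
  have hentry : ∀ i, (Dᴴ * G * D) i i = 1 := by
    intro i
    rw [hD, Matrix.diagonal_conjTranspose, Matrix.mul_diagonal, Matrix.diagonal_mul]
    simp only [hddef, Pi.star_apply, star_trivial]
    have hs : Real.sqrt (G i i) * Real.sqrt (G i i) = G i i := Real.mul_self_sqrt (hpos i).le
    have hsne : Real.sqrt (G i i) ≠ 0 := (Real.sqrt_pos.mpr (hpos i)).ne'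
    field_simp
    nlinarith [hs]
  have hle := det_le_one_of_diag_one hH hentry
  rw [hD, Matrix.diagonal_conjTranspose, Matrix.det_mul, Matrix.det_mul, Matrix.det_diagonal,
    Matrix.det_diagonal] at hle
  simp only [Pi.star_apply, star_trivial] at hle
  have hp : ∏ i, d i * d i = (∏ i, G i i)⁻¹ := by
    rw [← Finset.prod_inv_distrib]
    refine Finset.prod_congr rfl fun i _ => ?_
    rw [hddef]
    simp only [← mul_inv, Real.mul_self_sqrt (hpos i).le]
  have hprod : 0 < ∏ i, G i i := Finset.prod_pos fun i _ => hpos i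
  have h2 : (∏ i, G i i)⁻¹ * G.det ≤ 1 := by
    rw [← hp, Finset.prod_mul_distrib]
    linarith [hle]
  rwa [inv_mul_le_iff₀ hprod, mul_one] at h2

/-- If a real matrix `M` is the product of a square matrix `T` with nonzero determinant and an
integer matrix `c` having an integer right inverse, then the product of the squared row norms of
`M` is at least `det T ^ 2`, and `M` has at most as many rows as columns. -/
theorem sq_det_le_prod_rows {J K : Type*} [Fintype J] [DecidableEq J] [Fintype K]
    (T : Matrix J J ℝ) (c : Matrix J K ℤ) (g : Matrix K J ℤ) (hcg : c * g = 1)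
    (hT : T.det ≠ 0) :
    T.det ^ 2 ≤ ∏ j, ∑ k, ((T * c.map (fun x : ℤ => (x : ℝ))) j k) ^ 2 ∧
      Fintype.card J ≤ Fintype.card K := by
  classical
  set cR : Matrix J K ℝ := c.map (fun x : ℤ => (x : ℝ)) with hcR
  set gR : Matrix K J ℝ := g.map (fun x : ℤ => (x : ℝ)) with hgR
  have hcgR : cR * gR = 1 := by
    ext a b
    have h := congrFun (congrFun hcg a) b
    simp only [Matrix.mul_apply, hcR, hgR, Matrix.map_apply] at h ⊢
    rw [Matrix.one_apply] at h ⊢
    have h' := congrArg (fun x : ℤ => (x : ℝ)) h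
    push_cast at h'
    rw [h']
  have hinj : Function.Injective cR.vecMul := by
    intro x y hxy
    have h2 : Matrix.vecMul (Matrix.vecMul x cR) gR = Matrix.vecMul (Matrix.vecMul y cR) gR :=
      congrArg (fun z => Matrix.vecMul z gR) hxy
    simpa [Matrix.vecMul_vecMul, hcgR] using h2
  have hcc : (cR * cRᴴ).PosDef := Matrix.PosDef.mul_conjTranspose_self cR hinj
  have hcc1 : 1 ≤ (cR * cRᴴ).det := by
    have hpos := hcc.det_pos
    have heq : (cR * cRᴴ) = (c * c.transpose).map (Int.castRingHom ℝ) := by
      rw [Matrix.map_mul]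
      congr 1
    rw [heq, ← RingHom.mapMatrix_apply, ← RingHom.map_det] at hpos ⊢
    simp only [Int.coe_castRingHom] at hpos ⊢
    exact_mod_cast Int.cast_pos.mp hpos
  set M : Matrix J K ℝ := T * cR with hM
  have hMM : M * Mᴴ = T * (cR * cRᴴ) * Tᴴ := by
    rw [hM, Matrix.conjTranspose_mul]
    simp only [Matrix.mul_assoc]
  have hMinj : Function.Injective M.vecMul := by
    intro x y hxy
    have h2 : Matrix.vecMul (Matrix.vecMul x T) cR = Matrix.vecMul (Matrix.vecMul y T) cR := by
      simpa [hM, Matrix.vecMul_vecMul] using hxy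
    exact Matrix.vecMul_injective_iff_isUnit.mpr
      ((Matrix.isUnit_iff_isUnit_det _).mpr (isUnit_iff_ne_zero.mpr hT)) (hinj h2)
  refine ⟨?_, ?_⟩
  · have hMP : (M * Mᴴ).PosDef := Matrix.PosDef.mul_conjTranspose_self M hMinj
    have h1 := det_le_prod_diag hMP
    have h2 : (M * Mᴴ).det = T.det ^ 2 * (cR * cRᴴ).det := by
      rw [hMM, Matrix.det_mul, Matrix.det_mul, Matrix.det_conjTranspose, star_trivial]
      ring
    have h3 : ∀ j, (M * Mᴴ) j j = ∑ k, M j k ^ 2 := fun j => by
      simp [Matrix.mul_apply, sq]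
    simp only [h3] at h1
    have h4 : T.det ^ 2 ≤ T.det ^ 2 * (cR * cRᴴ).det :=
      le_mul_of_one_le_right (sq_nonneg _) hcc1
    linarith [h2]
  · let φ : (J → ℝ) →ₗ[ℝ] (K → ℝ) := Matrix.vecMulLinear cR
    have hφ : Function.Injective φ := hinj
    simpa using LinearMap.finrank_le_finrank_of_injective hφ

end Vale.Agent.P114
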