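import Vale.Agent.P114.Sparse

/-!
# Many small integer multiples force a bounded multiplier
-/

namespace Vale.Agent.P114

open Polynomial

theorem gauss_sum_le {M : ℝ} (hM : 0 < M) (c : ℝ) (F : Finset ℤ) :
    ∑ k ∈ F, Real.exp (-M * ((k : ℝ) + c) ^ 2) ≤ 1 + 16 / M := by
  classical
  set k0 : ℤ := round (-c) with hk0
  have hround : |(-c) - (k0 : ℝ)| ≤ 1 / 2 := abs_sub_round (-c)
  have hterm : ∀ k, k ≠ k0 →
      Real.exp (-M * ((k : ℝ) + c) ^ 2) ≤ 4 / M * (((k - k0).natAbs : ℝ) ^ 2)⁻¹ := by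
    intro k hk
    have hj : (1 : ℝ) ≤ |((k - k0 : ℤ) : ℝ)| := by
      rw [← Int.cast_abs]
      exact_mod_cast Int.one_le_abs (sub_ne_zero.mpr hk)
    have hlow : |((k - k0 : ℤ) : ℝ)| / 2 ≤ |(k : ℝ) + c| := by
      have h1 := abs_sub_abs_le_abs_sub ((k - k0 : ℤ) : ℝ) ((-c) - (k0 : ℝ))
      have h2 : ((k - k0 : ℤ) : ℝ) - ((-c) - (k0 : ℝ)) = (k : ℝ) + c := by push_cast; ring
      rw [h2] at h1
      linarith
    rw [Nat.cast_natAbs, Int.cast_abs, sq_abs]
    set j : ℝ := ((k - k0 : ℤ) : ℝ) with hjd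
    have hj2 : j ^ 2 / 4 ≤ ((k : ℝ) + c) ^ 2 := by
      have h3 := pow_le_pow_left₀ (by positivity) hlow 2
      rw [div_pow, sq_abs, sq_abs] at h3
      linarith
    have hjpos : 0 < j ^ 2 := by
      have := abs_pos.mp (lt_of_lt_of_le one_pos hj)
      positivity
    have hx : 0 < M * (j ^ 2 / 4) := by positivity
    calc Real.exp (-M * ((k : ℝ) + c) ^ 2) ≤ Real.exp (-(M * (j ^ 2 / 4))) := by
          refine Real.exp_le_exp.mpr ?_
          nlinarith
      _ ≤ (M * (j ^ 2 / 4))⁻¹ := by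
          rw [Real.exp_neg]
          exact inv_anti₀ hx (by linarith [Real.add_one_le_exp (M * (j ^ 2 / 4))])
      _ = 4 / M * (j ^ 2)⁻¹ := by field_simp
  set G : Finset ℤ := F.erase k0 with hG
  have hsplit : ∑ k ∈ F, Real.exp (-M * ((k : ℝ) + c) ^ 2) ≤
      1 + ∑ k ∈ G, Real.exp (-M * ((k : ℝ) + c) ^ 2) := by
    by_cases h : k0 ∈ F
    · rw [← Finset.add_sum_erase F _ h]
      have : Real.exp (-M * ((k0 : ℝ) + c) ^ 2) ≤ 1 := by
        rw [Real.exp_le_one_iff]
        nlinarith [sq_nonneg ((k0 : ℝ) + c)]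
      linarith
    · rw [hG, Finset.erase_eq_self.mpr h]
      linarith
  have hsum : ∑ k ∈ G, (((k - k0).natAbs : ℝ) ^ 2)⁻¹ ≤ 4 := by
    rw [← Finset.sum_fiberwise_of_maps_to (t := G.image fun k => (k - k0).natAbs)
      (g := fun k => (k - k0).natAbs) (fun k hk => Finset.mem_image_of_mem _ hk)]
    set J : Finset ℕ := G.image fun k => (k - k0).natAbs with hJ
    have hJsub : J ⊆ Finset.Ioo 0 (J.sup id + 1) := by
      intro j hj
      rw [Finset.mem_Ioo]
      refine ⟨?_, Nat.lt_succ_of_le (Finset.le_sup (f := id) hj)⟩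
      obtain ⟨k, hk, rfl⟩ := Finset.mem_image.mp hj
      have := (Finset.mem_erase.mp hk).1
      omega
    have h2 : ∑ j ∈ J, ((j : ℝ) ^ 2)⁻¹ ≤ 2 := by
      have := sum_Ioo_inv_sq_le (α := ℝ) 0 (J.sup id + 1)
      norm_num at this
      exact le_trans (Finset.sum_le_sum_of_subset_of_nonneg hJsub fun _ _ _ => by positivity) this
    calc ∑ j ∈ J, ∑ k ∈ G.filter (fun k => (k - k0).natAbs = j),
          (((k - k0).natAbs : ℝ) ^ 2)⁻¹
        ≤ ∑ j ∈ J, 2 * ((j : ℝ) ^ 2)⁻¹ := by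
          refine Finset.sum_le_sum fun j _ => ?_
          rw [Finset.sum_congr rfl (g := fun _ => ((j : ℝ) ^ 2)⁻¹)
            (fun k hk => by rw [(Finset.mem_filter.mp hk).2]), Finset.sum_const, nsmul_eq_mul]
          refine mul_le_mul_of_nonneg_right ?_ (by positivity)
          have : (G.filter fun k => (k - k0).natAbs = j) ⊆ {k0 + (j : ℤ), k0 - (j : ℤ)} := by
            intro k hk
            have := (Finset.mem_filter.mp hk).2
            simp only [Finset.mem_insert, Finset.mem_singleton]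
            omega
          exact_mod_cast le_trans (Finset.card_le_card this) Finset.card_le_two
      _ = 2 * ∑ j ∈ J, ((j : ℝ) ^ 2)⁻¹ := (Finset.mul_sum _ _ _).symm
      _ ≤ 4 := by linarith
  calc _ ≤ 1 + ∑ k ∈ G, Real.exp (-M * ((k : ℝ) + c) ^ 2) := hsplit
    _ ≤ 1 + ∑ k ∈ G, 4 / M * (((k - k0).natAbs : ℝ) ^ 2)⁻¹ := by
        linarith [Finset.sum_le_sum fun k (hk : k ∈ G) => hterm k (Finset.mem_erase.mp hk).1]
    _ ≤ 1 + 4 / M * 4 := by
        rw [← Finset.mul_sum]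
        gcongr
    _ = 1 + 16 / M := by ring

/-- The Gaussian lattice sum of a shift-invariant family. -/
theorem lattice_gauss {V : Type*} [NormedAddCommGroup V] [InnerProductSpace ℝ V]
    [FiniteDimensional ℝ V] (v : ℕ → V) (N0 : ℕ) {Λ μ : ℝ} (hΛ : 0 < Λ) (hμ : 0 < μ)
    (hshift : ∀ N, N + 1 ≤ N0 → ∀ c : Fin N → ℝ,
      ‖∑ k, c k • v (k + 1)‖ = ‖∑ k, c k • v k‖)
    (hlow : ∀ N, N + 1 ≤ N0 → ∀ c : Fin N → ℝ, Λ ≤ ‖v 0 + ∑ k, c k • v (k + 1)‖ ^ 2) :
    ∀ N, N ≤ N0 → ∀ (c : Fin N → ℝ) (F : Finset (Fin N → ℤ)),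
      ∑ w ∈ F, Real.exp (-μ * ‖∑ k, ((w k : ℝ) + c k) • v k‖ ^ 2) ≤
        (1 + 16 / (μ * Λ)) ^ N := by
  classical
  intro N
  induction N with
  | zero =>
    intro _ c F
    have hF : F.card ≤ 1 := Finset.card_le_one.mpr fun a _ b _ => Subsingleton.elim a b
    simpa using (by exact_mod_cast hF : ((F.card : ℝ)) ≤ 1)
  | succ N ih =>
    intro hN c F
    set L : (Fin N → ℝ) →ₗ[ℝ] V := Fintype.linearCombination ℝ fun k : Fin N => v ((k : ℕ) + 1)
      with hL
    set K : Submodule ℝ V := LinearMap.range L with hK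
    obtain ⟨r, hr⟩ := LinearMap.mem_range.mp
      (Submodule.coe_mem (K.orthogonalProjectionOnto (v 0)))
    have hrsum : ∑ k : Fin N, r k • v ((k : ℕ) + 1) = K.starProjection (v 0) := by
      rw [← Fintype.linearCombination_apply, ← hL, hr]
      rfl
    set b : V := v 0 - K.starProjection (v 0) with hb
    have hbΛ : Λ ≤ ‖b‖ ^ 2 := by
      have h := hlow N hN fun k => -r k
      simpa [hb, ← hrsum, sub_eq_add_neg, Finset.sum_neg_distrib, neg_smul] using h
    have hnorm : ∀ w : Fin (N + 1) → ℤ, ‖∑ k, ((w k : ℝ) + c k) • v k‖ ^ 2 =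
        ((w 0 : ℝ) + c 0) ^ 2 * ‖b‖ ^ 2 + ‖∑ k : Fin N, ((Fin.tail w k : ℝ) +
          (c k.succ + ((w 0 : ℝ) + c 0) * r k)) • v k‖ ^ 2 := by
      intro w
      set y : ℝ := (w 0 : ℝ) + c 0 with hy
      set c' : Fin N → ℝ := fun k => c k.succ + y * r k with hc'
      have hdec : ∑ k, ((w k : ℝ) + c k) • v k =
          y • b + ∑ k : Fin N, ((Fin.tail w k : ℝ) + c' k) • v ((k : ℕ) + 1) := by
        rw [Fin.sum_univ_succ, hb, ← hrsum, smul_sub, Finset.smul_sum]
        simp only [Fin.val_zero, Fin.val_succ, hc', Fin.tail, add_smul, mul_smul,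
          Finset.sum_add_distrib, ← hy]
        abel
      have hmem : ∑ k : Fin N, ((Fin.tail w k : ℝ) + c' k) • v ((k : ℕ) + 1) ∈ K :=
        LinearMap.mem_range.mpr ⟨fun k => (Fin.tail w k : ℝ) + c' k, by
          rw [hL, Fintype.linearCombination_apply]⟩
      have horth : inner ℝ (y • b)
          (∑ k : Fin N, ((Fin.tail w k : ℝ) + c' k) • v ((k : ℕ) + 1)) = 0 := by
        rw [real_inner_smul_left, hb, K.starProjection_inner_eq_zero (v 0) _ hmem, mul_zero]
      rw [hdec, norm_add_sq_real, horth, hshift N hN (fun k => (Fin.tail w k : ℝ) + c' k),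
        norm_smul, mul_pow, Real.norm_eq_abs, sq_abs]
      ring
    set F0 : Finset ℤ := F.image (fun w => w 0) with hF0
    set F1 : Finset (Fin N → ℤ) := F.image Fin.tail with hF1
    set g : ℤ → (Fin N → ℤ) → ℝ := fun w0 w' =>
      Real.exp (-μ * (((w0 : ℝ) + c 0) ^ 2 * ‖b‖ ^ 2)) * Real.exp (-μ * ‖∑ k : Fin N,
        ((w' k : ℝ) + (c k.succ + ((w0 : ℝ) + c 0) * r k)) • v k‖ ^ 2) with hg
    have hw : ∀ w : Fin (N + 1) → ℤ,
        Real.exp (-μ * ‖∑ k, ((w k : ℝ) + c k) • v k‖ ^ 2) = g (w 0) (Fin.tail w) := by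
      intro w
      simp only [hg, ← Real.exp_add, hnorm w]
      congr 1
      ring
    have hpos : 0 ≤ (1 + 16 / (μ * Λ)) ^ N := by positivity
    calc ∑ w ∈ F, Real.exp (-μ * ‖∑ k, ((w k : ℝ) + c k) • v k‖ ^ 2)
        = ∑ p ∈ F.image (fun w => (w 0, Fin.tail w)), g p.1 p.2 := by
          rw [Finset.sum_image]
          · exact Finset.sum_congr rfl fun w _ => hw w
          · intro a _ b' _ hab
            simp only [Prod.mk.injEq] at hab
            rw [← Fin.cons_self_tail a, ← Fin.cons_self_tail b', hab.1, hab.2]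
      _ ≤ ∑ p ∈ F0 ×ˢ F1, g p.1 p.2 := by
          refine Finset.sum_le_sum_of_subset_of_nonneg ?_ fun p _ _ => by
            simp only [hg]; positivity
          intro p hp
          obtain ⟨w, hwF, rfl⟩ := Finset.mem_image.mp hp
          exact Finset.mem_product.mpr
            ⟨Finset.mem_image_of_mem _ hwF, Finset.mem_image_of_mem _ hwF⟩
      _ = ∑ w0 ∈ F0, ∑ w' ∈ F1, g w0 w' := Finset.sum_product _ _ _
      _ ≤ ∑ w0 ∈ F0, Real.exp (-(μ * Λ) * ((w0 : ℝ) + c 0) ^ 2) *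
            (1 + 16 / (μ * Λ)) ^ N := by
          refine Finset.sum_le_sum fun w0 _ => ?_
          simp only [hg, ← Finset.mul_sum]
          refine mul_le_mul ?_ (ih (by omega) _ _)
            (Finset.sum_nonneg fun _ _ => (Real.exp_pos _).le) (Real.exp_pos _).le
          refine Real.exp_le_exp.mpr ?_
          have := mul_le_mul_of_nonneg_left hbΛ (mul_nonneg hμ.le (sq_nonneg ((w0 : ℝ) + c 0)))
          linarith
      _ ≤ (1 + 16 / (μ * Λ)) * (1 + 16 / (μ * Λ)) ^ N := by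
          rw [← Finset.sum_mul]
          exact mul_le_mul_of_nonneg_right (gauss_sum_le (by positivity) _ _) hpos
      _ = _ := (pow_succ' _ _).symm

theorem sum_sq_X_mul (Q : ℝ[X]) (D : ℕ) (h : Q.natDegree < D) :
    ∑ x ∈ Finset.range (D + 1), (X * Q).coeff x ^ 2 = ∑ x ∈ Finset.range (D + 1), Q.coeff x ^ 2 := by
  rw [Finset.sum_range_succ', Finset.sum_range_succ]
  simp [Polynomial.coeff_X_mul, Polynomial.coeff_eq_zero_of_natDegree_lt h]

/-- If exponentially many integer multiples of a tuple are small, the tuple has a multiplier. -/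
theorem exists_multiplier {T0 η : ℝ} (hT : 0 < T0) (hη : 0 < η) :
    ∃ κ : ℝ, 0 < κ ∧ κ ≤ 1 ∧ ∀ (m : ℕ) (A : Fin m → ℤ[X]) (N : ℕ) (F : Finset ℤ[X]), 1 ≤ N →
      (∀ w ∈ F, w.natDegree < N) →
      (∀ w ∈ F, ∀ T, mass (fun i => rp (w * A i)) T ≤ T0 * N) →
      Real.exp (η * N) < (F.card : ℝ) →
      ∃ u : ℝ[X], κ ≤ |u.coeff 0| ∧ ∀ T, mass (fun i => u * rp (A i)) T ≤ 1 := by
  classical
  set μ : ℝ := η / (2 * T0) with hμ
  set Λ : ℝ := 32 / (μ * η) + 1 with hΛ
  have hμ0 : 0 < μ := by positivity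
  have hΛ0 : 1 ≤ Λ := by
    rw [hΛ]
    have : 0 ≤ 32 / (μ * η) := by positivity
    linarith
  refine ⟨1 / Real.sqrt Λ, by positivity, ?_, fun m A N F hN hdeg hsmall hcard => ?_⟩
  · rw [div_le_one (by positivity)]
    exact Real.one_le_sqrt.mpr hΛ0
  set D : ℕ := N + Finset.univ.sup (fun i => (A i).natDegree) + 1 with hD
  set q : ℝ[X] → ℝ := fun p => mass (fun i => p * rp (A i)) (Finset.range D) with hq
  have hq0 : ∀ p, 0 ≤ q p := fun p =>
    Finset.sum_nonneg fun _ _ => Finset.sum_nonneg fun _ _ => sq_nonneg _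
  by_cases hex : ∃ p : ℝ[X], p.natDegree ≤ N ∧ q p < Λ * p.coeff 0 ^ 2
  · obtain ⟨p, hpN, hp⟩ := hex
    have hall : ∀ T, mass (fun i => p * rp (A i)) T ≤ q p := by
      intro T
      refine le_trans ?_ (mass_mono (fun i => p * rp (A i))
        (Finset.inter_subset_right (s₁ := T) (s₂ := Finset.range D)))
      refine le_of_eq (Finset.sum_congr rfl fun i _ => ?_)
      refine (Finset.sum_subset Finset.inter_subset_left fun x hxT hx => ?_).symm
      have hxD : D ≤ x := by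
        by_contra h
        exact hx (Finset.mem_inter.mpr ⟨hxT, Finset.mem_range.mpr (by omega)⟩)
      rw [Polynomial.coeff_eq_zero_of_natDegree_lt, zero_pow two_ne_zero]
      have h1 : (rp (A i)).natDegree ≤ (A i).natDegree := Polynomial.natDegree_map_le
      have h2 := Finset.le_sup (f := fun i => (A i).natDegree) (Finset.mem_univ i)
      have h3 := Polynomial.natDegree_mul_le (p := p) (q := rp (A i))
      simp only []
      change (p * rp (A i)).natDegree < x
      omega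
    have hp0 : p.coeff 0 ≠ 0 := by
      intro h
      rw [h] at hp
      linarith [hq0 p, show Λ * (0 : ℝ) ^ 2 = 0 by ring]
    set s : ℝ := Real.sqrt (Λ * p.coeff 0 ^ 2) with hs
    have hs0 : 0 < s := by positivity
    refine ⟨Polynomial.C s⁻¹ * p, ?_, fun T => ?_⟩
    · rw [Polynomial.coeff_C_mul, abs_mul, abs_inv, abs_of_pos hs0, hs,
        Real.sqrt_mul (by linarith) _, Real.sqrt_sq_eq_abs]
      have : 0 < |p.coeff 0| := abs_pos.mpr hp0
      field_simp
      exact le_refl _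
    · have : mass (fun i => Polynomial.C s⁻¹ * p * rp (A i)) T =
          s⁻¹ ^ 2 * mass (fun i => p * rp (A i)) T := by
        unfold mass
        simp only [Finset.mul_sum, mul_assoc (Polynomial.C s⁻¹), Polynomial.coeff_C_mul, mul_pow]
      rw [this, inv_pow, inv_mul_le_iff₀ (by positivity), mul_one, hs,
        Real.sq_sqrt (by positivity)]
      exact le_trans (hall T) hp.le
  exfalso
  push Not at hex
  let v : ℕ → EuclideanSpace ℝ (Fin m × Fin D) := fun k =>
    WithLp.toLp 2 fun a => (X ^ k * rp (A a.1) : ℝ[X]).coeff a.2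
  have hv : ∀ (n : ℕ) (c : Fin n → ℝ) (g : ℕ → ℕ),
      ‖∑ k, c k • v (g k)‖ ^ 2 = q (∑ k : Fin n, Polynomial.C (c k) * X ^ g k) := by
    intro n c g
    rw [EuclideanSpace.real_norm_sq_eq, Fintype.sum_prod_type]
    simp only [hq, mass]
    refine Finset.sum_congr rfl fun i _ => ?_
    rw [← Fin.sum_univ_eq_sum_range
      (fun x => ((∑ k : Fin n, Polynomial.C (c k) * X ^ g k) * rp (A i)).coeff x ^ 2)]
    refine Finset.sum_congr rfl fun x _ => ?_
    simp [v, Finset.sum_mul, Polynomial.finsetSum_coeff, mul_assoc, Polynomial.coeff_C_mul]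
  have hdegsum : ∀ (n : ℕ) (c : Fin n → ℝ) (g : ℕ → ℕ) (B : ℕ), (∀ k : Fin n, g k ≤ B) →
      (∑ k : Fin n, Polynomial.C (c k) * X ^ g k).natDegree ≤ B := fun n c g B hB =>
    Polynomial.natDegree_sum_le_of_forall_le _ _ fun k _ =>
      le_trans (Polynomial.natDegree_C_mul_X_pow_le _ _) (hB k)
  have hshift : ∀ n, n + 1 ≤ N → ∀ c : Fin n → ℝ,
      ‖∑ k, c k • v (k + 1)‖ = ‖∑ k, c k • v k‖ := by
    intro n hn c
    rw [← sq_eq_sq₀ (norm_nonneg _) (norm_nonneg _), hv n c (fun k => k + 1), hv n c (fun k => k)]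
    simp only [hq, mass]
    refine Finset.sum_congr rfl fun i _ => ?_
    have hX : (∑ k : Fin n, Polynomial.C (c k) * X ^ ((k : ℕ) + 1)) * rp (A i) =
        X * ((∑ k : Fin n, Polynomial.C (c k) * X ^ (k : ℕ)) * rp (A i)) := by
      rw [← mul_assoc, Finset.mul_sum]
      congr 1
      exact Finset.sum_congr rfl fun k _ => by ring
    rw [hX]
    have hD' : D = (D - 1) + 1 := by omega
    rw [hD']
    refine sum_sq_X_mul _ _ ?_
    have h1 : (rp (A i)).natDegree ≤ (A i).natDegree := Polynomial.natDegree_map_le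
    have h2 := Finset.le_sup (f := fun i => (A i).natDegree) (Finset.mem_univ i)
    have h3 := hdegsum n c (fun k => k) (N - 1) fun k => by have := k.2; omega
    have h4 := Polynomial.natDegree_mul_le
      (p := ∑ k : Fin n, Polynomial.C (c k) * X ^ (k : ℕ)) (q := rp (A i))
    omega
  have hlow : ∀ n, n + 1 ≤ N → ∀ c : Fin n → ℝ,
      Λ ≤ ‖v 0 + ∑ k, c k • v (k + 1)‖ ^ 2 := by
    intro n hn c
    have he : v 0 + ∑ k, c k • v (k + 1) =
        ∑ k : Fin (n + 1), (Fin.cons 1 c : Fin (n + 1) → ℝ) k • v k := by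
      simp [Fin.sum_univ_succ]
    rw [he, hv (n + 1) _ (fun k => k)]
    have h := hex _ (hdegsum (n + 1) (Fin.cons 1 c) (fun k => k) N
      fun k => by have := k.2; omega)
    refine le_trans (le_of_eq ?_) h
    simp [Fin.sum_univ_succ, Polynomial.finsetSum_coeff, Polynomial.coeff_X_pow]
  set G : Finset (Fin N → ℤ) := F.image fun w k => w.coeff k with hGdef
  have hGc : G.card = F.card := by
    refine Finset.card_image_of_injOn fun a ha b hb hab => ?_
    ext i
    by_cases hi : i < N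
    · exact congrFun hab ⟨i, hi⟩
    · rw [Polynomial.coeff_eq_zero_of_natDegree_lt (lt_of_lt_of_le (hdeg a ha) (by omega)),
        Polynomial.coeff_eq_zero_of_natDegree_lt (lt_of_lt_of_le (hdeg b hb) (by omega))]
  have hmain := lattice_gauss v N (by linarith : (0 : ℝ) < Λ) hμ0 hshift hlow N le_rfl 0 G
  have hterm : ∀ w ∈ G, Real.exp (-μ * (T0 * N)) ≤
      Real.exp (-μ * ‖∑ k, ((w k : ℝ) + (0 : Fin N → ℝ) k) • v k‖ ^ 2) := by
    intro w hw
    obtain ⟨P, hP, rfl⟩ := Finset.mem_image.mp hw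
    refine Real.exp_le_exp.mpr (mul_le_mul_of_nonpos_left ?_ (by linarith))
    simp only [Pi.zero_apply, add_zero]
    rw [hv N _ (fun k => k)]
    have hPe : ∑ k : Fin N, Polynomial.C ((P.coeff k : ℤ) : ℝ) * X ^ (k : ℕ) = rp P := by
      rw [Fin.sum_univ_eq_sum_range (fun k => Polynomial.C ((P.coeff k : ℤ) : ℝ) * X ^ k)]
      conv_rhs => rw [(rp P).as_sum_range_C_mul_X_pow'
        (lt_of_le_of_lt Polynomial.natDegree_map_le (hdeg P hP))]
      simp [rp, Polynomial.coeff_map]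
    rw [hPe]
    have := hsmall P hP (Finset.range D)
    simpa [hq, rp, Polynomial.map_mul] using this
  have h1 : (F.card : ℝ) * Real.exp (-μ * (T0 * N)) ≤ (1 + 16 / (μ * Λ)) ^ N := by
    refine le_trans ?_ hmain
    rw [← hGc, ← nsmul_eq_mul, ← Finset.sum_const]
    exact Finset.sum_le_sum hterm
  have h2 : (1 + 16 / (μ * Λ)) ^ N ≤ Real.exp (η / 2) ^ N := by
    refine pow_le_pow_left₀ (by positivity) ?_ N
    refine le_trans ?_ (Real.add_one_le_exp _)
    rw [add_comm (η / 2)]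
    refine add_le_add le_rfl ?_
    rw [div_le_iff₀ (by positivity), hΛ]
    have h3 : η / 2 * (μ * (32 / (μ * η) + 1)) = 16 + η / 2 * μ := by field_simp; ring
    rw [h3]
    nlinarith
  have h3 : Real.exp (η * N) * Real.exp (-μ * (T0 * N)) = Real.exp (η / 2) ^ N := by
    rw [← Real.exp_add, ← Real.exp_nat_mul, hμ]
    congr 1
    field_simp
    ring
  nlinarith [Real.exp_pos (-μ * (T0 * (N : ℝ)))]

end Vale.Agent.P114
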