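import Vale.Agent.P114.Defs
import Vale.Agent.P114.Height

/-!
# Basic properties of the word maps
-/

namespace Vale.Agent.P114

open Polynomial

variable {ι : Type*} [Fintype ι] (a b : ι → ℤ)

/-- The translation part of a word map. -/
noncomputable def val (lam t : ℝ) {n : ℕ} (w : Fin n → ι) : ℝ :=
  ∑ i : Fin n, lam ^ (i : ℕ) * ((a (w i) : ℝ) + (b (w i) : ℝ) * t)

/-- The polynomial of the first digits of a word. -/
noncomputable def digitPoly (c : ι → ℤ) {n : ℕ} (w : Fin n → ι) : ℤ[X] :=
  ∑ i : Fin n, Polynomial.monomial (i : ℕ) (c (w i))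

omit [Fintype ι] in
theorem wordMap_eq (lam t : ℝ) : ∀ {n : ℕ} (w : Fin n → ι) (x : ℝ),
    wordMap a b lam t w x = lam ^ n * x + val a b lam t w
  | 0, w, x => by simp [wordMap, val]
  | n + 1, w, x => by
      have ih := wordMap_eq lam t (fun i => w i.succ) x
      simp only [wordMap] at ih ⊢
      rw [List.ofFn_succ, List.foldr_cons, ih]
      simp only [val, Fin.sum_univ_succ, Fin.val_zero, Fin.val_succ, pow_zero, mul_add,
        Finset.mul_sum, one_mul]
      simp only [pow_succ', mul_assoc, mul_add]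
      ring

omit [Fintype ι] in
theorem val_eq (lam t : ℝ) {n : ℕ} (w : Fin n → ι) :
    val a b lam t w = aeval lam (digitPoly a w) + t * aeval lam (digitPoly b w) := by
  simp only [val, digitPoly, map_sum, Polynomial.aeval_monomial, Finset.mul_sum,
    ← Finset.sum_add_distrib]
  refine Finset.sum_congr rfl fun i _ => ?_
  simp only [algebraMap_int_eq, Int.coe_castRingHom]
  ring

omit [Fintype ι] in
theorem val_append (lam t : ℝ) {m n : ℕ} (u : Fin m → ι) (v : Fin n → ι) :
    val a b lam t (Fin.append u v) = val a b lam t u + lam ^ m * val a b lam t v := by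
  simp only [val, Fin.sum_univ_add, Fin.append_left, Fin.append_right, Fin.val_castAdd,
    Fin.val_natAdd, Finset.mul_sum, pow_add]
  congr 1
  exact Finset.sum_congr rfl fun i _ => by ring

omit [Fintype ι] in
theorem digitPoly_append (c : ι → ℤ) {m n : ℕ} (u : Fin m → ι) (v : Fin n → ι) :
    digitPoly c (Fin.append u v) = digitPoly c u + X ^ m * digitPoly c v := by
  simp only [digitPoly, Fin.sum_univ_add, Fin.append_left, Fin.append_right, Fin.val_castAdd,
    Fin.val_natAdd, Finset.mul_sum, Polynomial.X_pow_mul_monomial]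
  congr 1
  exact Finset.sum_congr rfl fun i _ => by rw [Nat.add_comm]

omit [Fintype ι] in
theorem digitPoly_coeff (c : ι → ℤ) {n : ℕ} (w : Fin n → ι) (k : ℕ) :
    (digitPoly c w).coeff k = if h : k < n then c (w ⟨k, h⟩) else 0 := by
  simp only [digitPoly, Polynomial.finsetSum_coeff, Polynomial.coeff_monomial]
  split_ifs with h
  · rw [Finset.sum_eq_single ⟨k, h⟩ (fun j _ hj => if_neg fun h' => hj (Fin.ext h'))
      (fun h' => absurd (Finset.mem_univ _) h'), if_pos rfl]
  · exact Finset.sum_eq_zero fun j _ => if_neg fun (h' : (j : ℕ) = k) => h (h' ▸ j.2)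

theorem wordWeight_nonneg {p : ι → ℝ} (hp : ∀ i, 0 ≤ p i) {n : ℕ} (w : Fin n → ι) :
    0 ≤ wordWeight p w := Finset.prod_nonneg fun _ _ => hp _

theorem wordWeight_sum {p : ι → ℝ} (h1 : ∑ i, p i = 1) (n : ℕ) :
    ∑ w : Fin n → ι, wordWeight p w = 1 := by
  classical
  simp [wordWeight, ← Fintype.sum_pow, h1]

omit [Fintype ι] in
theorem wordMap_inj_iff (lam t : ℝ) {n : ℕ} (w w' : Fin n → ι) :
    wordMap a b lam t w = wordMap a b lam t w' ↔ val a b lam t w = val a b lam t w' := by
  constructor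
  · intro h
    have := congrFun h 0
    simpa [wordMap_eq] using this
  · intro h
    funext x
    rw [wordMap_eq, wordMap_eq, h]

theorem walkEntropy_eq {p : ι → ℝ} (hp : ∀ i, 0 ≤ p i) (lam t : ℝ) (n : ℕ) :
    walkEntropy a b p lam t n = entropy (wordWeight p) (val a b lam t (n := n)) :=
  entropy_congr (wordWeight_nonneg hp) _ _ fun w w' => (wordMap_inj_iff a b lam t w w').symm

theorem walkEntropy_nonneg {p : ι → ℝ} (hp : ∀ i, 0 ≤ p i) (h1 : ∑ i, p i = 1) (lam t : ℝ)
    (n : ℕ) : 0 ≤ walkEntropy a b p lam t n :=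
  entropy_nonneg _ (wordWeight_nonneg hp) (wordWeight_sum h1 n)

omit [Fintype ι] in
theorem wordWeight_append [Fintype ι] (p : ι → ℝ) {m n : ℕ} (u : Fin m → ι) (v : Fin n → ι) :
    wordWeight p (Fin.append u v) = wordWeight p u * wordWeight p v := by
  simp [wordWeight, Fin.prod_univ_add]

theorem entropy_append {β : Type*} (p : ι → ℝ) {m n : ℕ} (f : (Fin (m + n) → ι) → β) :
    entropy (fun q : (Fin m → ι) × (Fin n → ι) => wordWeight p q.1 * wordWeight p q.2)
      (fun q => f (Fin.append q.1 q.2)) = entropy (wordWeight p) f := by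
  have h := entropy_equiv (Fin.appendEquiv m n) (wordWeight p (n := m + n)) f
  simpa [Fin.appendEquiv, wordWeight_append] using h

theorem walkEntropy_add {p : ι → ℝ} (hp : ∀ i, 0 ≤ p i) (h1 : ∑ i, p i = 1) (lam t : ℝ)
    (m n : ℕ) : walkEntropy a b p lam t (m + n) ≤
      walkEntropy a b p lam t m + walkEntropy a b p lam t n := by
  rw [walkEntropy_eq a b hp, walkEntropy_eq a b hp, walkEntropy_eq a b hp,
    ← entropy_prod (wordWeight_nonneg hp) (wordWeight_nonneg hp) (wordWeight_sum h1 m)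
      (wordWeight_sum h1 n), ← entropy_append p]
  refine entropy_le_of_factor (fun q => mul_nonneg (wordWeight_nonneg hp _)
    (wordWeight_nonneg hp _)) _ _ fun q q' hq => ?_
  simp only [Prod.mk.injEq] at hq
  simp only [val_append, hq.1, hq.2]

theorem walkEntropy_zero {p : ι → ℝ} (hp : ∀ i, 0 ≤ p i) (lam t : ℝ) :
    walkEntropy a b p lam t 0 = 0 := by
  classical
  rw [walkEntropy_eq a b hp]
  simp [entropy, val, wordWeight]

theorem walkEntropy_mul {p : ι → ℝ} (hp : ∀ i, 0 ≤ p i) (h1 : ∑ i, p i = 1) (lam t : ℝ)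
    (k n : ℕ) : walkEntropy a b p lam t (k * n) ≤ k * walkEntropy a b p lam t n := by
  induction k with
  | zero => simp [walkEntropy_zero a b hp]
  | succ k ih =>
    rw [Nat.succ_mul]
    have := walkEntropy_add a b hp h1 lam t (k * n) n
    push_cast
    linarith

theorem hRW_le {p : ι → ℝ} (hp : ∀ i, 0 ≤ p i) (h1 : ∑ i, p i = 1) (lam t : ℝ) {n : ℕ}
    (hn : 1 ≤ n) : hRW a b p lam t * n ≤ walkEntropy a b p lam t n := by
  obtain ⟨k, rfl⟩ : ∃ k, n = k + 1 := ⟨n - 1, by omega⟩
  have hb : BddBelow (Set.range fun k : ℕ => walkEntropy a b p lam t (k + 1) / (k + 1)) :=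
    ⟨0, by
      rintro x ⟨j, rfl⟩
      exact div_nonneg (walkEntropy_nonneg a b hp h1 lam t _) (by positivity)⟩
  have h := ciInf_le hb k
  rw [le_div_iff₀ (by positivity)] at h
  unfold hRW
  exact_mod_cast h

theorem aeval_int_eq_zero {lam : ℝ} (ht : Transcendental ℚ lam) {P : ℤ[X]}
    (h : aeval lam P = 0) : P = 0 := by
  by_contra hP
  refine ht ⟨P.map (algebraMap ℤ ℚ), ?_, by rwa [Polynomial.aeval_map_algebraMap]⟩
  exact (Polynomial.map_ne_zero_iff (algebraMap ℤ ℚ).injective_int).mpr hP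

theorem aeval_int_inj {lam : ℝ} (ht : Transcendental ℚ lam) {P Q : ℤ[X]}
    (h : aeval lam P = aeval lam Q) : P = Q :=
  sub_eq_zero.mp (aeval_int_eq_zero ht (by rw [map_sub, h, sub_self]))

/-- **Collapse forces a sparse relation.** If `n` steps lose entropy `δ * n` against the formal
walk, then `t` is a ratio of sparse integer polynomials at `lam`. -/
theorem collapse_relation (p : ι → ℝ) (hp : ∀ i, 0 ≤ p i) (h1 : ∑ i, p i = 1)
    {δ : ℝ} (hδ : 0 < δ) :
    ∃ N : ℕ, ∀ (lam t : ℝ), Transcendental ℚ lam → ∀ n, 1 ≤ n →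
      walkEntropy a b p lam t n + δ * n <
        entropy (wordWeight p (n := n)) (fun w => (digitPoly a w, digitPoly b w)) →
      ∃ P Q : ℤ[X], Q ≠ 0 ∧ Bdd N n P ∧ Bdd N n Q ∧ aeval lam P = t * aeval lam Q := by
  classical
  set B0 : ℕ := Finset.univ.sup fun i => (a i).natAbs + (b i).natAbs with hB0
  set T0 : ℝ := 8 * (B0 : ℝ) ^ 2 + 1 with hT0
  obtain ⟨κ, hκ0, hκ1, hmult⟩ := exists_multiplier (T0 := T0) (η := δ) (by positivity) hδ
  obtain ⟨N, hN⟩ := sparse_relation (m := 2) le_rfl hκ0 hκ1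
  refine ⟨N, fun lam t ht n hn hH => ?_⟩
  set g : (Fin n → ι) → ℤ[X] × ℤ[X] := fun w => (digitPoly a w, digitPoly b w) with hg
  set f : (Fin n → ι) → ℝ := val a b lam t with hf
  have hfg : ∀ x y, g x = g y → f x = f y := by
    intro x y h
    simp only [hg, Prod.mk.injEq] at h
    simp only [hf, val_eq, h.1, h.2]
  rw [walkEntropy_eq a b hp] at hH
  obtain ⟨x0, hx0⟩ : ∃ x, Real.exp (δ * n) <
      ((((Finset.univ.filter fun y => f y = f x).image g).card : ℕ) : ℝ) := by
    by_contra hcon
    push Not at hcon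
    have := entropy_le_add_log (wordWeight_nonneg hp) (wordWeight_sum h1 n) f g hfg _ hcon
    rw [Real.log_exp] at this
    linarith
  set F : Finset (ℤ[X] × ℤ[X]) :=
    ((Finset.univ.filter fun y => f y = f x0).image g).image (fun z => z - g x0) with hF
  have hFc : Real.exp (δ * n) < (F.card : ℝ) := by
    rwa [hF, Finset.card_image_of_injective _ (sub_left_injective)]
  have hFd : ∀ z ∈ F, aeval lam z.1 + t * aeval lam z.2 = 0 ∧
      (∀ k, (z.1.coeff k).natAbs ≤ 2 * B0 ∧ (z.2.coeff k).natAbs ≤ 2 * B0) ∧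
      z.1.natDegree < n ∧ z.2.natDegree < n := by
    intro z hz
    simp only [hF, Finset.mem_image, Finset.mem_filter, Finset.mem_univ, true_and] at hz
    obtain ⟨z', ⟨y, hy, rfl⟩, rfl⟩ := hz
    refine ⟨?_, fun k => ?_, ?_, ?_⟩
    · simp only [hf, val_eq] at hy
      simp only [hg, Prod.fst_sub, Prod.snd_sub, map_sub]
      linarith
    · simp only [hg, Prod.fst_sub, Prod.snd_sub, Polynomial.coeff_sub, digitPoly_coeff]
      have hbd : ∀ i, (a i).natAbs + (b i).natAbs ≤ B0 := fun i =>
        Finset.le_sup (f := fun i => (a i).natAbs + (b i).natAbs) (Finset.mem_univ i)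
      by_cases hk : k < n
      · simp only [dif_pos hk]
        have := hbd (y ⟨k, hk⟩)
        have := hbd (x0 ⟨k, hk⟩)
        omega
      · simp [dif_neg hk]
    all_goals
      rw [Nat.lt_iff_le_pred (by omega), Polynomial.natDegree_le_iff_coeff_eq_zero]
      intro k hk
      simp only [hg, Prod.fst_sub, Prod.snd_sub, Polynomial.coeff_sub, digitPoly_coeff]
      rw [dif_neg (by omega), dif_neg (by omega), sub_zero]
  obtain ⟨z1, hz1, hz1ne⟩ : ∃ z ∈ F, z ≠ 0 := by
    by_contra hcon
    push Not at hcon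
    have hsub : F ⊆ {0} := fun z hz => Finset.mem_singleton.mpr (hcon z hz)
    have hle : (F.card : ℝ) ≤ 1 := by exact_mod_cast Finset.card_le_card hsub
    have := Real.add_one_le_exp (δ * n)
    have hnpos : (1 : ℝ) ≤ n := by exact_mod_cast hn
    nlinarith
  obtain ⟨h10, -, h1d, h1d'⟩ := hFd z1 hz1
  have hz12 : z1.2 ≠ 0 := by
    intro h
    rw [h, map_zero, mul_zero, add_zero] at h10
    exact hz1ne (Prod.ext (aeval_int_eq_zero ht h10) h)
  obtain ⟨A, B, C, hrel, hCA, hCB⟩ :=
    UniqueFactorizationMonoid.exists_reduced_factors z1.2 hz12 z1.1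
  have hC0 : C ≠ 0 := fun h => hz12 (by rw [← hCA, h, zero_mul])
  have hA0 : A ≠ 0 := fun h => hz12 (by rw [← hCA, h, mul_zero])
  have hAB : aeval lam B + t * aeval lam A = 0 := by
    rw [← hCA, ← hCB, map_mul, map_mul] at h10
    have hCl : aeval lam C ≠ 0 := fun h => hC0 (aeval_int_eq_zero ht h)
    have : aeval lam C * (aeval lam B + t * aeval lam A) = 0 := by linarith
    exact (mul_eq_zero.mp this).resolve_left hCl
  have hAl : aeval lam A ≠ 0 := fun h => hA0 (aeval_int_eq_zero ht h)
  have hex : ∀ z ∈ F, ∃ w : ℤ[X], z.1 = w * B ∧ z.2 = w * A := by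
    intro z hz
    obtain ⟨hz0, -, -, -⟩ := hFd z hz
    have hcross : z.1 * A = B * z.2 := by
      refine aeval_int_inj ht ?_
      rw [map_mul, map_mul]
      linear_combination aeval lam A * hz0 - aeval lam z.2 * hAB
    obtain ⟨w, hw⟩ := hrel.dvd_of_dvd_mul_left ⟨z.1, by rw [← hcross, mul_comm]⟩
    refine ⟨w, mul_right_cancel₀ hA0 ?_, by rw [hw, mul_comm]⟩
    rw [hcross, hw]
    ring
  choose! wf hwf using hex
  set G : Finset ℤ[X] := F.image wf with hG
  have hGc : G.card = F.card := Finset.card_image_of_injOn fun z hz z' hz' hzz => by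
    rw [Prod.ext_iff, (hwf z hz).1, (hwf z hz).2, (hwf z' hz').1, (hwf z' hz').2, hzz]
    exact ⟨rfl, rfl⟩
  set tup : Fin 2 → ℤ[X] := ![B, A] with htup
  have hdegw : ∀ w ∈ G, w.natDegree < n := by
    intro w hw
    obtain ⟨z, hz, rfl⟩ := Finset.mem_image.mp hw
    by_cases h : wf z = 0
    · rw [h, Polynomial.natDegree_zero]; omega
    · have := (hFd z hz).2.2.2
      rw [(hwf z hz).2, Polynomial.natDegree_mul h hA0] at this
      omega
  have hsmall : ∀ w ∈ G, ∀ T, mass (fun i => rp (w * tup i)) T ≤ T0 * n := by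
    intro w hw T
    obtain ⟨z, hz, rfl⟩ := Finset.mem_image.mp hw
    obtain ⟨-, hco, hd1, hd2⟩ := hFd z hz
    have hone : ∀ Z : ℤ[X], (∀ k, (Z.coeff k).natAbs ≤ 2 * B0) → Z.natDegree < n →
        ∑ x ∈ T, (rp Z).coeff x ^ 2 ≤ 4 * (B0 : ℝ) ^ 2 * n := by
      intro Z hZ hZd
      calc ∑ x ∈ T, (rp Z).coeff x ^ 2
          ≤ ∑ x ∈ T, (if x < n then 4 * (B0 : ℝ) ^ 2 else 0) := by
            refine Finset.sum_le_sum fun x _ => ?_
            simp only [rp, Polynomial.coeff_map, Int.coe_castRingHom]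
            by_cases hx : x < n
            · rw [if_pos hx, ← sq_abs]
              have h2 : |((Z.coeff x : ℤ) : ℝ)| ≤ 2 * B0 := by
                rw [← Int.cast_abs, Int.abs_eq_natAbs]
                exact_mod_cast hZ x
              calc _ ≤ (2 * (B0 : ℝ)) ^ 2 := pow_le_pow_left₀ (abs_nonneg _) h2 2
                _ = _ := by ring
            · rw [if_neg hx, Polynomial.coeff_eq_zero_of_natDegree_lt (by omega)]
              simp
        _ = ((T.filter fun x => x < n).card : ℝ) * (4 * (B0 : ℝ) ^ 2) := by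
            rw [← Finset.sum_filter, Finset.sum_const, nsmul_eq_mul]
        _ ≤ (n : ℝ) * (4 * (B0 : ℝ) ^ 2) := by
            refine mul_le_mul_of_nonneg_right ?_ (by positivity)
            have : (T.filter fun x => x < n) ⊆ Finset.range n := fun x hx =>
              Finset.mem_range.mpr (Finset.mem_filter.mp hx).2
            exact_mod_cast le_trans (Finset.card_le_card this) (Finset.card_range n).le
        _ = _ := by ring
    simp only [mass, Fin.sum_univ_two, htup, Matrix.cons_val_zero, Matrix.cons_val_one,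
      Matrix.head_cons, ← (hwf z hz).1, ← (hwf z hz).2]
    have e1 := hone z.1 (fun k => (hco k).1) hd1
    have e2 := hone z.2 (fun k => (hco k).2) hd2
    have hn0 : (0 : ℝ) ≤ n := Nat.cast_nonneg _
    rw [hT0]
    nlinarith
  obtain ⟨u, hu, hmass⟩ := hmult 2 tup n G hn hdegw hsmall (by rw [hGc]; exact hFc)
  have hdtup : ∀ i, (tup i).natDegree ≤ n := by
    intro i
    fin_cases i
    · by_cases hB : B = 0
      · simp [htup, hB]
      · have := h1d
        rw [← hCB, Polynomial.natDegree_mul hC0 hB] at this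
        simp [htup]; omega
    · have := h1d'
      rw [← hCA, Polynomial.natDegree_mul hC0 hA0] at this
      simp [htup]; omega
  obtain ⟨R, ⟨i, hi⟩, hR, hRb⟩ := hN tup n hdtup u hu hmass
  simp only [Fin.sum_univ_two, htup, Matrix.cons_val_zero, Matrix.cons_val_one,
    Matrix.head_cons] at hR
  refine ⟨R 1, R 0, ?_, hRb 1, hRb 0, ?_⟩
  · intro h0
    rw [h0, zero_mul, zero_add] at hR
    fin_cases i
    · exact hi h0
    · exact hi ((mul_eq_zero.mp hR).resolve_right hA0)
  · have h := congrArg (aeval lam) hR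
    rw [map_add, map_mul, map_mul, map_zero] at h
    refine mul_right_cancel₀ hAl ?_
    linear_combination h - aeval lam (R 0) * hAB

end Vale.Agent.P114
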