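import Mathlib

/-!
# Entropy of a function on a finite weighted space
-/

namespace Vale.Agent.P114

open Real

/-- The Shannon entropy (natural logarithm) of the law of `f` under the weights `w`. -/
noncomputable def entropy {α β : Type*} [Fintype α] (w : α → ℝ) (f : α → β) : ℝ :=
  letI := Classical.decEq β
  ∑ y ∈ Finset.univ.image f, negMulLog (∑ x ∈ Finset.univ.filter (fun x => f x = y), w x)

variable {α β γ δ : Type*} [Fintype α] [Fintype γ]

/-- The weight of the class of `x` under `f`. -/
noncomputable def fib {α β : Type*} [Fintype α] (w : α → ℝ) (f : α → β) (x : α) : ℝ :=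
  letI := Classical.decEq β
  ∑ y ∈ Finset.univ.filter (fun y => f y = f x), w y

theorem fib_eq [DecidableEq β] (w : α → ℝ) (f : α → β) (x : α) :
    fib w f x = ∑ y ∈ Finset.univ.filter (fun y => f y = f x), w y := by
  unfold fib
  congr 1
  ext y; simp

theorem entropy_eq_sum (w : α → ℝ) (f : α → β) :
    entropy w f = ∑ x, -(w x * log (fib w f x)) := by
  classical
  unfold entropy
  rw [← Finset.sum_fiberwise_of_maps_to (s := Finset.univ) (t := Finset.univ.image f) (g := f)
    (fun x _ => Finset.mem_image_of_mem f (Finset.mem_univ x)) fun x => -(w x * log (fib w f x))]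
  refine Finset.sum_congr ?_ fun y _ => ?_
  · ext; simp
  · rw [negMulLog, neg_mul, Finset.sum_mul, ← Finset.sum_neg_distrib]
    refine Finset.sum_congr (by ext; simp) fun x hx => ?_
    rw [fib_eq, (Finset.mem_filter.1 hx).2]

theorem le_fib {w : α → ℝ} (hw : ∀ x, 0 ≤ w x) (f : α → β) (x : α) : w x ≤ fib w f x := by
  classical
  rw [fib_eq]
  exact Finset.single_le_sum (fun y _ => hw y) (Finset.mem_filter.2 ⟨Finset.mem_univ x, rfl⟩)

theorem fib_le_one {w : α → ℝ} (hw : ∀ x, 0 ≤ w x) (h1 : ∑ x, w x = 1) (f : α → β) (x : α) :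
    fib w f x ≤ 1 := by
  classical
  rw [fib_eq, ← h1]
  exact Finset.sum_le_univ_sum_of_nonneg hw

/-- Summing `w x / fib x` against a quantity constant on classes sums it over the classes. -/
theorem sum_div_fib_le [DecidableEq β] {w : α → ℝ} (f : α → β) (F : β → ℝ)
    (hF : ∀ y, 0 ≤ F y) :
    ∑ x, w x / fib w f x * F (f x) ≤ ∑ y ∈ Finset.univ.image f, F y := by
  rw [← Finset.sum_fiberwise_of_maps_to (s := Finset.univ) (t := Finset.univ.image f) (g := f)
    (fun x _ => Finset.mem_image_of_mem f (Finset.mem_univ x)) fun x => w x / fib w f x * F (f x)]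
  refine Finset.sum_le_sum fun y _ => ?_
  set S := Finset.univ.filter fun x => f x = y with hS
  have h : ∀ x ∈ S, w x / fib w f x * F (f x) = w x / (∑ i ∈ S, w i) * F y := fun x hx => by
    rw [fib_eq, (Finset.mem_filter.1 hx).2]
  rw [Finset.sum_congr rfl h, ← Finset.sum_mul, ← Finset.sum_div]
  exact mul_le_of_le_one_left (hF y) (div_self_le_one _)

theorem entropy_nonneg {w : α → ℝ} (f : α → β) (hw : ∀ x, 0 ≤ w x) (h1 : ∑ x, w x = 1) :
    0 ≤ entropy w f := by
  rw [entropy_eq_sum]
  refine Finset.sum_nonneg fun x _ => neg_nonneg.2 ?_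
  exact mul_nonpos_of_nonneg_of_nonpos (hw x)
    (log_nonpos ((hw x).trans (le_fib hw f x)) (fib_le_one hw h1 f x))

theorem entropy_le_of_factor {ε : Type*} {w : α → ℝ} (hw : ∀ x, 0 ≤ w x) (f : α → β) (g : α → ε)
    (h : ∀ x y, g x = g y → f x = f y) : entropy w f ≤ entropy w g := by
  classical
  rw [entropy_eq_sum, entropy_eq_sum]
  refine Finset.sum_le_sum fun x _ => neg_le_neg ?_
  rcases (hw x).lt_or_eq with hx | hx
  · refine mul_le_mul_of_nonneg_left (log_le_log (hx.trans_le (le_fib hw g x)) ?_) (hw x)
    rw [fib_eq, fib_eq]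
    refine Finset.sum_le_sum_of_subset_of_nonneg (fun y hy => ?_) fun y _ _ => hw y
    simp only [Finset.mem_filter, Finset.mem_univ, true_and] at hy ⊢
    exact h y x hy
  · simp [← hx]

theorem entropy_congr {ε : Type*} {w : α → ℝ} (hw : ∀ x, 0 ≤ w x) (f : α → β) (g : α → ε)
    (h : ∀ x y, g x = g y ↔ f x = f y) : entropy w f = entropy w g :=
  le_antisymm (entropy_le_of_factor hw f g fun x y => (h x y).1)
    (entropy_le_of_factor hw g f fun x y => (h x y).2)

theorem entropy_le_add_log {ε : Type*} [DecidableEq ε] [DecidableEq β] {w : α → ℝ}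
    (hw : ∀ x, 0 ≤ w x) (h1 : ∑ x, w x = 1) (f : α → β) (g : α → ε)
    (h : ∀ x y, g x = g y → f x = f y) (K : ℝ)
    (hK : ∀ x, (((Finset.univ.filter fun y => f y = f x).image g).card : ℝ) ≤ K) :
    entropy w g ≤ entropy w f + Real.log K := by
  have hne : (Finset.univ : Finset α).Nonempty := by
    rw [Finset.nonempty_iff_ne_empty]
    intro h0
    simp [h0] at h1
  obtain ⟨x₀, -⟩ := hne
  have hK1 : (1 : ℝ) ≤ K := by
    refine le_trans ?_ (hK x₀)
    exact_mod_cast Finset.card_pos.2 ⟨g x₀, Finset.mem_image_of_mem g (by simp)⟩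
  rw [entropy_eq_sum, entropy_eq_sum]
  -- pointwise: `log t ≤ t / K - 1 + log K`
  have key : ∀ x, -(w x * log (fib w g x)) ≤
      -(w x * log (fib w f x)) + w x / fib w g x * fib w f x / K - w x + w x * log K := by
    intro x
    rcases (hw x).lt_or_eq with hx | hx
    · have hg := hx.trans_le (le_fib hw g x)
      have hf := hx.trans_le (le_fib hw f x)
      have := log_le_sub_one_of_pos (show 0 < fib w f x / fib w g x / K by positivity)
      rw [log_div (div_pos hf hg).ne' (by linarith), log_div hf.ne' hg.ne'] at this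
      have h2 := mul_le_mul_of_nonneg_left this (hw x)
      rw [show w x / fib w g x * fib w f x / K = w x * (fib w f x / fib w g x / K) by ring]
      linarith
    · simp [← hx]
  refine (Finset.sum_le_sum fun x _ => key x).trans ?_
  rw [Finset.sum_add_distrib, Finset.sum_sub_distrib, Finset.sum_add_distrib, ← Finset.sum_div,
    ← Finset.sum_mul, h1]
  have hsum : ∑ x, w x / fib w g x * fib w f x ≤ K := by
    let W : β → ℝ := fun y => ∑ x ∈ Finset.univ.filter (fun x => f x = y), w x
    have hfy : ∀ x, fib w f x = W (f x) := fun x => fib_eq w f x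
    let F : ε → ℝ := fun z => if hz : ∃ x, g x = z then W (f hz.choose) else 0
    have hFx : ∀ x, F (g x) = W (f x) := fun x => by
      have hz : ∃ y, g y = g x := ⟨x, rfl⟩
      show (if hz : ∃ y, g y = g x then W (f hz.choose) else 0) = _
      rw [dif_pos hz, h _ _ hz.choose_spec]
    have hW : ∀ y, 0 ≤ W y := fun y => Finset.sum_nonneg fun x _ => hw x
    have hF : ∀ z, 0 ≤ F z := fun z => by
      show 0 ≤ dite _ _ _
      split_ifs
      exacts [hW _, le_rfl]
    calc ∑ x, w x / fib w g x * fib w f x = ∑ x, w x / fib w g x * F (g x) := by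
          simp only [hfy, hFx]
      _ ≤ ∑ z ∈ Finset.univ.image g, F z := sum_div_fib_le g F hF
      _ ≤ ∑ y ∈ Finset.univ.image f,
            ∑ z ∈ (Finset.univ.filter fun x => f x = y).image g, F z := by
          rw [← Finset.sum_biUnion]
          · refine Finset.sum_le_sum_of_subset_of_nonneg (fun z hz => ?_) fun z _ _ => hF z
            obtain ⟨x, -, rfl⟩ := Finset.mem_image.1 hz
            exact Finset.mem_biUnion.2 ⟨f x, Finset.mem_image_of_mem f (Finset.mem_univ x),
              Finset.mem_image_of_mem g (by simp)⟩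
          · intro y _ y' _ hyy
            simp only [Function.onFun, Finset.disjoint_left, Finset.mem_image, Finset.mem_filter,
              Finset.mem_univ, true_and]
            rintro _ ⟨x, hx, rfl⟩ ⟨x', hx', hxx⟩
            exact hyy (by rw [← hx, ← hx', h x x' hxx.symm])
      _ ≤ ∑ y ∈ Finset.univ.image f, K * W y := by
          refine Finset.sum_le_sum fun y hy => ?_
          obtain ⟨x, -, rfl⟩ := Finset.mem_image.1 hy
          have hc : ∀ z ∈ (Finset.univ.filter fun i => f i = f x).image g, F z = W (f x) := by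
            intro z hz
            obtain ⟨i, hi, rfl⟩ := Finset.mem_image.1 hz
            rw [hFx, (Finset.mem_filter.1 hi).2]
          rw [Finset.sum_congr rfl hc, Finset.sum_const, nsmul_eq_mul]
          exact mul_le_mul_of_nonneg_right (hK x) (hW _)
      _ = K := by
          rw [← Finset.mul_sum, Finset.sum_fiberwise_of_maps_to
            (fun x _ => Finset.mem_image_of_mem f (Finset.mem_univ x)), h1, mul_one]
  have : (∑ x, w x / fib w g x * fib w f x) / K ≤ 1 := (div_le_one (by linarith)).2 hsum
  linarith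

theorem entropy_prod {ε : Type*} {w : α → ℝ} {v : γ → ℝ} (hw : ∀ x, 0 ≤ w x)
    (hv : ∀ x, 0 ≤ v x) (hw1 : ∑ x, w x = 1) (hv1 : ∑ x, v x = 1) (f : α → β) (g : γ → ε) :
    entropy (fun p : α × γ => w p.1 * v p.2) (fun p => (f p.1, g p.2)) =
      entropy w f + entropy v g := by
  classical
  rw [entropy_eq_sum, entropy_eq_sum, entropy_eq_sum, Fintype.sum_prod_type]
  have hfib : ∀ a c, fib (fun p : α × γ => w p.1 * v p.2) (fun p => (f p.1, g p.2)) (a, c) =
      fib w f a * fib v g c := fun a c => by
    rw [fib_eq, fib_eq, fib_eq, Finset.sum_mul_sum, ← Finset.sum_product']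
    refine Finset.sum_congr ?_ fun _ _ => rfl
    ext p
    simp [Prod.ext_iff]
  have key : ∀ a c, -(w a * v c * log (fib (fun p : α × γ => w p.1 * v p.2)
      (fun p => (f p.1, g p.2)) (a, c))) =
      -(w a * log (fib w f a)) * v c + w a * -(v c * log (fib v g c)) := by
    intro a c
    rcases (hw a).lt_or_eq with ha | ha
    · rcases (hv c).lt_or_eq with hc | hc
      · rw [hfib, log_mul (ha.trans_le (le_fib hw f a)).ne' (hc.trans_le (le_fib hv g c)).ne']
        ring
      · simp [← hc]
    · simp [← ha]
  simp only [key, Finset.sum_add_distrib, ← Finset.mul_sum, hv1, mul_one, ← Finset.sum_mul, hw1,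
    one_mul]

/-- The chain inequality: if `Φ` determines `ψ` of the first coordinate, and together with the
first coordinate determines `g` of the second, then it carries both entropies. -/
theorem entropy_chain {ε ζ : Type*} {w : α → ℝ} {v : γ → ℝ} (hw : ∀ x, 0 ≤ w x)
    (hv : ∀ x, 0 ≤ v x) (hw1 : ∑ x, w x = 1) (hv1 : ∑ x, v x = 1)
    (Φ : α × γ → β) (ψ : α → ε) (g : γ → ζ)
    (hψ : ∀ p q, Φ p = Φ q → ψ p.1 = ψ q.1)
    (hg : ∀ a b b', Φ (a, b) = Φ (a, b') → g b = g b') :
    entropy w ψ + entropy v g ≤ entropy (fun p : α × γ => w p.1 * v p.2) Φ := by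
  classical
  rw [entropy_eq_sum, entropy_eq_sum, entropy_eq_sum, Fintype.sum_prod_type]
  set P : α × γ → ℝ := fib (fun p : α × γ => w p.1 * v p.2) Φ with hP
  -- pointwise: `log t ≥ 1 - 1 / t`
  have key : ∀ a c, -(w a * log (fib w ψ a)) * v c + w a * -(v c * log (fib v g c)) ≤
      -(w a * v c * log (P (a, c))) +
        (w a / fib w ψ a * (v c / fib v g c) * P (a, c) - w a * v c) := by
    intro a c
    rcases (hw a).lt_or_eq with ha | ha
    · rcases (hv c).lt_or_eq with hc | hc
      · have hp : 0 < P (a, c) := (mul_pos ha hc).trans_le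
          (le_fib (w := fun p : α × γ => w p.1 * v p.2) (fun p => mul_nonneg (hw _) (hv _)) Φ (a, c))
        have hA := ha.trans_le (le_fib hw ψ a)
        have hC := hc.trans_le (le_fib hv g c)
        have := log_le_sub_one_of_pos (show 0 < P (a, c) / (fib w ψ a * fib v g c) by positivity)
        rw [log_div hp.ne' (mul_pos hA hC).ne', log_mul hA.ne' hC.ne'] at this
        have h2 := mul_le_mul_of_nonneg_left this (mul_nonneg (hw a) (hv c))
        rw [show w a / fib w ψ a * (v c / fib v g c) * P (a, c) =
          w a * v c * (P (a, c) / (fib w ψ a * fib v g c)) by ring]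
        linarith
      · simp [← hc]
    · simp [← ha]
  have hsum : ∑ a, ∑ c, w a / fib w ψ a * (v c / fib v g c) * P (a, c) ≤ 1 := by
    let W : β → ℝ := fun z =>
      ∑ p ∈ Finset.univ.filter (fun p => Φ p = z), w p.1 * v p.2
    let q : α × γ → ℝ := fun p => w p.1 / fib w ψ p.1 * (v p.2 / fib v g p.2)
    have hq0 : ∀ p, 0 ≤ q p := fun p =>
      mul_nonneg (div_nonneg (hw _) ((hw _).trans (le_fib hw ψ _)))
        (div_nonneg (hv _) ((hv _).trans (le_fib hv g _)))
    have hz : ∀ z, ∑ p ∈ Finset.univ.filter (fun p => Φ p = z), q p ≤ 1 := by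
      intro z
      rcases (Finset.univ.filter fun p => Φ p = z).eq_empty_or_nonempty with he | ⟨p₀, hp₀⟩
      · rw [he]; simp
      replace hp₀ : Φ p₀ = z := (Finset.mem_filter.1 hp₀).2
      rw [Finset.sum_filter, Fintype.sum_prod_type]
      calc ∑ a, ∑ c, (if Φ (a, c) = z then q (a, c) else 0)
          ≤ ∑ a, (if ψ a = ψ p₀.1 then w a / fib w ψ a else 0) := by
            refine Finset.sum_le_sum fun a _ => ?_
            by_cases ha : ∃ c, Φ (a, c) = z
            · obtain ⟨c₀, hc₀⟩ := ha
              rw [if_pos (hψ (a, c₀) p₀ (hc₀.trans hp₀.symm)), ← Finset.sum_filter]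
              show ∑ c ∈ Finset.univ.filter (fun c => Φ (a, c) = z),
                w a / fib w ψ a * (v c / fib v g c) ≤ _
              rw [← Finset.mul_sum]
              refine mul_le_of_le_one_right (div_nonneg (hw a) ((hw a).trans (le_fib hw ψ a))) ?_
              calc ∑ c ∈ Finset.univ.filter (fun c => Φ (a, c) = z), v c / fib v g c
                  = ∑ c ∈ Finset.univ.filter (fun c => Φ (a, c) = z), v c / fib v g c₀ := by
                    refine Finset.sum_congr rfl fun c hc => ?_
                    rw [fib_eq, fib_eq, hg a c c₀ ((Finset.mem_filter.1 hc).2.trans hc₀.symm)]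
                _ ≤ 1 := by
                    rw [← Finset.sum_div]
                    refine div_le_one_of_le₀ ?_ ((hv c₀).trans (le_fib hv g c₀))
                    rw [fib_eq]
                    refine Finset.sum_le_sum_of_subset_of_nonneg (fun c hc => ?_) fun c _ _ => hv c
                    exact Finset.mem_filter.2 ⟨Finset.mem_univ c,
                      hg a c c₀ ((Finset.mem_filter.1 hc).2.trans hc₀.symm)⟩
            · rw [Finset.sum_eq_zero fun c _ => if_neg fun h => ha ⟨c, h⟩]
              split_ifs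
              exacts [div_nonneg (hw a) ((hw a).trans (le_fib hw ψ a)), le_rfl]
        _ = (∑ a ∈ Finset.univ.filter (fun a => ψ a = ψ p₀.1), w a) / fib w ψ p₀.1 := by
            rw [← Finset.sum_filter, Finset.sum_div]
            refine Finset.sum_congr rfl fun a ha => ?_
            rw [fib_eq, fib_eq, (Finset.mem_filter.1 ha).2]
        _ ≤ 1 := by rw [fib_eq]; exact div_self_le_one _
    calc ∑ a, ∑ c, w a / fib w ψ a * (v c / fib v g c) * P (a, c)
        = ∑ p : α × γ, q p * W (Φ p) := by
          rw [Fintype.sum_prod_type]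
          refine Finset.sum_congr rfl fun a _ => Finset.sum_congr rfl fun c _ => ?_
          simp only [q, W, hP]
          rw [fib_eq (fun p : α × γ => w p.1 * v p.2) Φ (a, c)]
      _ = ∑ z ∈ Finset.univ.image Φ, W z * ∑ p ∈ Finset.univ.filter (fun p => Φ p = z), q p := by
          rw [← Finset.sum_fiberwise_of_maps_to (s := Finset.univ) (t := Finset.univ.image Φ)
            (g := Φ) (fun p _ => Finset.mem_image_of_mem Φ (Finset.mem_univ p))]
          refine Finset.sum_congr rfl fun z _ => ?_
          rw [Finset.mul_sum]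
          exact Finset.sum_congr rfl fun p hp => by rw [(Finset.mem_filter.1 hp).2, mul_comm]
      _ ≤ ∑ z ∈ Finset.univ.image Φ, W z := Finset.sum_le_sum fun z _ =>
          mul_le_of_le_one_right (Finset.sum_nonneg fun p _ => mul_nonneg (hw _) (hv _)) (hz z)
      _ = 1 := by
          rw [Finset.sum_fiberwise_of_maps_to
            (fun p _ => Finset.mem_image_of_mem Φ (Finset.mem_univ p)), Fintype.sum_prod_type]
          simp [← Finset.mul_sum, hv1, hw1]
  have h2 := Finset.sum_le_sum fun a (_ : a ∈ Finset.univ) =>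
    Finset.sum_le_sum fun c (_ : c ∈ Finset.univ) => key a c
  simp only [Finset.sum_add_distrib, Finset.sum_sub_distrib, ← Finset.mul_sum, hv1, mul_one,
    ← Finset.sum_mul, hw1, one_mul] at h2
  simp only [← Finset.mul_sum, mul_assoc] at hsum h2 ⊢
  linarith

theorem entropy_equiv (e : γ ≃ α) (w : α → ℝ) (f : α → β) :
    entropy (fun x => w (e x)) (fun x => f (e x)) = entropy w f := by
  classical
  rw [entropy_eq_sum, entropy_eq_sum, ← e.sum_comp fun x => -(w x * log (fib w f x))]
  refine Finset.sum_congr rfl fun x _ => ?_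
  congr 3
  rw [fib_eq, fib_eq, Finset.sum_filter, Finset.sum_filter,
    ← e.sum_comp fun y => if f y = f (e x) then w y else 0]

end Vale.Agent.P114
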