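import Mathlib

/-!
# Polynomials with few terms and small coefficients
-/

namespace Vale.Agent.P114

open Polynomial

/-- At a transcendental point of the unit interval a nonzero polynomial with at most `N` terms and
coefficients at most `N` is bounded below by a constant times the power at its degree. -/
theorem sparse_lower {lam : ℝ} (h0 : 0 < lam) (h1 : lam < 1) (ht : Transcendental ℚ lam) (N : ℕ) :
    ∃ c : ℝ, 0 < c ∧ ∀ P : ℤ[X], P ≠ 0 → P.support.card ≤ N → (∀ k, (P.coeff k).natAbs ≤ N) →
      c * lam ^ P.natDegree ≤ |aeval lam P| := by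
  suffices H : ∀ k : ℕ, ∃ c : ℝ, 0 < c ∧ ∀ P : ℤ[X], P.coeff 0 ≠ 0 → P.support.card ≤ k →
      (∀ i, (P.coeff i).natAbs ≤ N) → c ≤ |aeval lam P| by
    obtain ⟨c, hc, h⟩ := H N
    refine ⟨c, hc, fun P hP hcard hcoef => ?_⟩
    set e := P.natTrailingDegree with he
    have hle : e ≤ P.natDegree := natTrailingDegree_le_natDegree P
    obtain ⟨Q, hQ⟩ : X ^ e ∣ P :=
      X_pow_dvd_iff.2 fun i hi => coeff_eq_zero_of_lt_natTrailingDegree hi
    have hco : ∀ i, Q.coeff i = P.coeff (i + e) := fun i => by rw [hQ, coeff_X_pow_mul]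
    have hQ0 : Q.coeff 0 ≠ 0 := by
      rw [hco, zero_add]
      exact trailingCoeff_nonzero_iff_nonzero.2 hP
    have hQc : Q.support.card ≤ N := by
      refine le_trans ?_ hcard
      refine Finset.card_le_card_of_injOn (fun i => i + e) (fun i hi => ?_) (fun a _ b _ h => ?_)
      · simp only [Finset.mem_coe, mem_support_iff, hco] at hi ⊢
        exact hi
      · simpa using h
    have hval := h Q hQ0 hQc fun i => hco i ▸ hcoef _
    rw [hQ, map_mul, map_pow, aeval_X, abs_mul, abs_pow, abs_of_pos h0, mul_comm c]
    exact mul_le_mul (pow_le_pow_of_le_one h0.le h1.le (by rw [← hQ]; exact hle)) hval hc.le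
      (by positivity)
  intro k
  induction k with
  | zero =>
    refine ⟨1, one_pos, fun P hP hcard _ => ?_⟩
    exact absurd (Finset.card_pos.2 ⟨0, mem_support_iff.2 hP⟩) (by omega)
  | succ k ih =>
    obtain ⟨c, hc, h⟩ := ih
    obtain ⟨G, hG⟩ := exists_pow_lt_of_lt_one (show 0 < c / (2 * ((N : ℝ) + 1)) by positivity) h1
    have hGle : ((N : ℝ) + 1) * lam ^ G ≤ c / 2 := by
      rw [lt_div_iff₀ (by positivity)] at hG
      linarith
    -- the finitely many polynomials of degree below `G + 1`
    set box : Finset (Fin (G + 1) → ℤ) :=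
      Fintype.piFinset fun _ => Finset.Icc (-(N : ℤ)) N with hbox
    set val : (Fin (G + 1) → ℤ) → ℝ := fun v => |∑ i, (v i : ℝ) * lam ^ (i : ℕ)| with hval
    set T := insert (c / 2) ((box.image val).filter fun r => 0 < r) with hT
    have hTne : T.Nonempty := Finset.insert_nonempty _ _
    refine ⟨T.min' hTne, ?_, fun P hP hcard hcoef => ?_⟩
    · rcases Finset.mem_insert.1 (T.min'_mem hTne) with h' | h'
      · rw [h']; linarith
      · exact (Finset.mem_filter.1 h').2
    rcases Nat.lt_or_ge P.natDegree (G + 1) with hd | hd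
    · refine Finset.min'_le _ _ (Finset.mem_insert_of_mem (Finset.mem_filter.2 ⟨?_, ?_⟩))
      · refine Finset.mem_image.2 ⟨fun i => P.coeff i, ?_, ?_⟩
        · simp only [hbox, Fintype.mem_piFinset, Finset.mem_Icc]
          intro i
          have := hcoef i
          omega
        · simp only [hval, aeval_eq_sum_range' hd lam, zsmul_eq_mul]
          rw [Fin.sum_univ_eq_sum_range (fun i => (P.coeff i : ℝ) * lam ^ i)]
      · rw [abs_pos]
        intro hz
        refine ht ⟨P.map (Int.castRingHom ℚ), ?_, ?_⟩
        · rw [Ne, Polynomial.map_eq_zero_iff (Int.cast_injective)]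
          rintro rfl
          simp at hP
        · rw [← hz, ← Polynomial.aeval_map_algebraMap ℚ lam P]
          rfl
    · refine (Finset.min'_le _ _ (Finset.mem_insert_self _ _)).trans ?_
      set d := P.natDegree with hdd
      have hd0 : d ≠ 0 := by omega
      have hPne : P ≠ 0 := fun e => hP (by simp [e])
      have hdm : d ∈ P.support := natDegree_mem_support_of_nonzero hPne
      have h3 : c ≤ |aeval lam P.eraseLead| := by
        refine h _ ?_ ?_ fun i => ?_
        · rw [eraseLead_coeff_of_ne 0 (Ne.symm hd0)]
          exact hP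
        · rw [eraseLead_support, Finset.card_erase_of_mem hdm]
          omega
        · rcases eq_or_ne i d with rfl | hne
          · rw [hdd, eraseLead_coeff_natDegree]; simp
          · rw [eraseLead_coeff_of_ne i hne]
            exact hcoef i
      have hsplit : aeval lam P = aeval lam P.eraseLead + (P.coeff d : ℝ) * lam ^ d := by
        conv_lhs => rw [← eraseLead_add_monomial_natDegree_leadingCoeff P]
        rw [map_add, aeval_monomial, leadingCoeff]
        rfl
      have hsmall : |(P.coeff d : ℝ) * lam ^ d| ≤ c / 2 := by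
        rw [abs_mul, abs_pow, abs_of_pos h0]
        refine le_trans (mul_le_mul ?_ (pow_le_pow_of_le_one h0.le h1.le (by omega : G ≤ d))
          (by positivity) (by positivity)) hGle
        have := hcoef d
        rw [← Int.cast_abs, Int.abs_eq_natAbs]
        exact_mod_cast le_trans this (Nat.le_succ N)
      rw [hsplit]
      have h4 := abs_add_le (aeval lam P.eraseLead + (P.coeff d : ℝ) * lam ^ d)
        (-((P.coeff d : ℝ) * lam ^ d))
      rw [add_neg_cancel_right, abs_neg] at h4
      linarith

/-- Two polynomials with few terms have a common gap just above their lowest exponents. -/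
theorem exists_gap (N : ℕ) (φ : ℕ → ℕ) : ∃ Dmax : ℕ, ∀ P Q : ℤ[X], (P ≠ 0 ∨ Q ≠ 0) →
    P.support.card ≤ N → Q.support.card ≤ N →
    ∃ e D : ℕ, D ≤ Dmax ∧ (∀ k < e, P.coeff k = 0 ∧ Q.coeff k = 0) ∧
      (P.coeff e ≠ 0 ∨ Q.coeff e ≠ 0) ∧
      (∀ k, e + D < k → k ≤ e + φ D → P.coeff k = 0 ∧ Q.coeff k = 0) := by
  let d : ℕ → ℕ := fun i => Nat.rec 0 (fun _ x => x + φ x + 1) i
  have hd : ∀ i, d (i + 1) = d i + φ (d i) + 1 := fun i => rfl
  have hmono : Monotone d := monotone_nat_of_le_succ fun i => by rw [hd]; omega
  refine ⟨d (2 * N), fun P Q hne hP hQ => ?_⟩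
  set S := P.support ∪ Q.support with hS
  have hS0 : S.Nonempty := by
    rcases hne with h | h
    · exact (support_nonempty.2 h).mono Finset.subset_union_left
    · exact (support_nonempty.2 h).mono Finset.subset_union_right
  set e := S.min' hS0 with he
  have hcard : S.card ≤ 2 * N := (Finset.card_union_le _ _).trans (by omega)
  have hex : ∃ i ≤ 2 * N, ∀ k ∈ S, ¬ (e + d i < k ∧ k ≤ e + φ (d i)) := by
    by_contra hc
    push Not at hc
    choose f hf hf1 hf2 using hc
    have := Finset.card_le_card_of_injOn (s := (Finset.range (2 * N + 1)).attach) (t := S)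
      (fun i => f i.1 (by have := Finset.mem_range.1 i.2; omega))
      (fun i _ => hf i.1 (by have := Finset.mem_range.1 i.2; omega)) (by
        intro i _ j _ hij
        by_contra hne'
        have hi : i.1 ≤ 2 * N := by have := Finset.mem_range.1 i.2; omega
        have hj : j.1 ≤ 2 * N := by have := Finset.mem_range.1 j.2; omega
        simp only at hij
        rcases Nat.lt_or_gt_of_ne (fun h => hne' (Subtype.ext h) : i.1 ≠ j.1) with h | h
        · have := hmono (show i.1 + 1 ≤ j.1 from h)
          rw [hd] at this
          have := hf2 i.1 hi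
          have := hf1 j.1 hj
          omega
        · have := hmono (show j.1 + 1 ≤ i.1 from h)
          rw [hd] at this
          have := hf2 j.1 hj
          have := hf1 i.1 hi
          omega)
    rw [Finset.card_attach, Finset.card_range] at this
    omega
  obtain ⟨i, hi, hgap⟩ := hex
  refine ⟨e, d i, hmono hi, fun k hk => ?_, ?_, fun k hk hk' => ?_⟩
  · have : k ∉ S := fun h => absurd (S.min'_le k h) (by omega)
    simpa [hS, mem_support_iff] using this
  · have := S.min'_mem hS0
    rw [← he] at this
    simpa [hS, mem_support_iff] using Finset.mem_union.1 this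
  · have : k ∉ S := fun h => hgap k h ⟨hk, hk'⟩
    simpa [hS, mem_support_iff] using this

end Vale.Agent.P114
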