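import Vale.Agent.P114.Walk
import Vale.Agent.P114.Gap

/-!
# Separation of exact-overlap parameters and semicontinuity of the entropy rate
-/

namespace Vale.Agent.P114

open Polynomial

variable {ι : Type*} [Fintype ι] (a b : ι → ℤ)

theorem natAbs_coeff_mul_le {P Q : ℤ[X]} {N M : ℕ} (hP : P.support.card ≤ N)
    (hP2 : ∀ k, (P.coeff k).natAbs ≤ N) (hQ : ∀ k, (Q.coeff k).natAbs ≤ M) (k : ℕ) :
    ((P * Q).coeff k).natAbs ≤ N * (N * M) := by
  rw [Polynomial.mul_eq_sum_sum, Polynomial.finsetSum_coeff]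
  refine le_trans (Int.natAbs_sum_le _ _) (le_trans (Finset.sum_le_card_nsmul _ _ (N * M) ?_) ?_)
  · intro i _
    simp only [Polynomial.sum, Polynomial.finsetSum_coeff, Polynomial.coeff_monomial]
    by_cases hik : i ≤ k
    · by_cases hmem : k - i ∈ Q.support
      · rw [Finset.sum_eq_single (k - i) (fun j _ hj => if_neg (by omega))
          (fun h => absurd hmem h), if_pos (by omega), Int.natAbs_mul]
        exact Nat.mul_le_mul (hP2 i) (hQ _)
      · rw [Finset.sum_eq_zero fun j hj => if_neg ?_]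
        · simp
        · intro hj'
          exact hmem (by rwa [show k - i = j by omega])
    · rw [Finset.sum_eq_zero fun j _ => if_neg (by omega)]
      simp
  · rw [smul_eq_mul]
    exact Nat.mul_le_mul_right _ hP

theorem card_support_mul_le {P Q : ℤ[X]} :
    (P * Q).support.card ≤ P.support.card * Q.support.card := by
  classical
  exact Polynomial.card_support_mul_le

theorem abs_aeval_le {lam : ℝ} (h0 : 0 ≤ lam) (h1 : lam ≤ 1) {N : ℕ} {P : ℤ[X]}
    (hP : P.support.card ≤ N) (hP2 : ∀ k, (P.coeff k).natAbs ≤ N) :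
    |aeval lam P| ≤ (N : ℝ) * N := by
  rw [Polynomial.aeval_eq_sum_range' (n := P.natDegree + 1) (Nat.lt_succ_self _)]
  refine le_trans (Finset.abs_sum_le_sum_abs _ _) ?_
  calc ∑ i ∈ Finset.range (P.natDegree + 1), |P.coeff i • lam ^ i|
      ≤ ∑ i ∈ Finset.range (P.natDegree + 1), (if i ∈ P.support then (N : ℝ) else 0) := by
        refine Finset.sum_le_sum fun i _ => ?_
        by_cases hi : i ∈ P.support
        · rw [if_pos hi, zsmul_eq_mul, abs_mul]
          have h2 : |((P.coeff i : ℤ) : ℝ)| ≤ N := by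
            rw [← Int.cast_abs, Int.abs_eq_natAbs]
            exact_mod_cast hP2 i
          calc _ ≤ (N : ℝ) * 1 := by
                refine mul_le_mul h2 ?_ (abs_nonneg _) (Nat.cast_nonneg _)
                rw [abs_pow, abs_of_nonneg h0]
                exact pow_le_one₀ h0 h1
            _ = N := mul_one _
        · rw [if_neg hi, Polynomial.notMem_support_iff.mp hi]
          simp
    _ ≤ (N : ℝ) * N := by
        rw [← Finset.sum_filter, Finset.sum_const, nsmul_eq_mul]
        refine mul_le_mul_of_nonneg_right ?_ (Nat.cast_nonneg _)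
        exact_mod_cast le_trans (Finset.card_le_card fun i hi => (Finset.mem_filter.mp hi).2) hP

/-- The digits of the three maps `x ↦ lam x`, `x ↦ lam x + 1`, `x ↦ lam x + t`. -/
def digitA : Fin 3 → ℤ := ![0, 1, 0]

/-- The coefficient of `t` in the three maps. -/
def digitB : Fin 3 → ℤ := ![0, 0, 1]

theorem formal_entropy_three (p : Fin 3 → ℝ) (hp : ∀ i, 0 ≤ p i) (h1 : ∑ i, p i = 1) (n : ℕ) :
    entropy (wordWeight p (n := n)) (fun w => (digitPoly digitA w, digitPoly digitB w)) =
      n * ∑ i, Real.negMulLog (p i) := by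
  classical
  have hinj : ∀ {n : ℕ} (w w' : Fin n → Fin 3), w = w' ↔
      (digitPoly digitA w, digitPoly digitB w) = (digitPoly digitA w', digitPoly digitB w') := by
    intro n w w'
    refine ⟨fun h => by rw [h], fun h => ?_⟩
    simp only [Prod.mk.injEq] at h
    funext i
    have ha := congrArg (fun P : ℤ[X] => P.coeff i) h.1
    have hb := congrArg (fun P : ℤ[X] => P.coeff i) h.2
    simp only [digitPoly_coeff, dif_pos i.2, Fin.eta] at ha hb
    revert ha hb
    generalize w i = x
    generalize w' i = y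
    fin_cases x <;> fin_cases y <;> simp [digitA, digitB]
  rw [entropy_congr (wordWeight_nonneg hp) _ (fun w : Fin n → Fin 3 => w) hinj]
  induction n with
  | zero => simp [entropy, wordWeight, Finset.filter_singleton]
  | succ n ih =>
    have hid : entropy p (fun i : Fin 3 => i) = ∑ i, Real.negMulLog (p i) := by
      simp [entropy, Finset.filter_eq']
    rw [← entropy_equiv (Fin.consEquiv fun _ : Fin (n + 1) => Fin 3)]
    have hw : ∀ q : Fin 3 × (Fin n → Fin 3), wordWeight p
        ((Fin.consEquiv fun _ : Fin (n + 1) => Fin 3) q) = p q.1 * wordWeight p q.2 := by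
      intro q
      simp [wordWeight, Fin.prod_univ_succ]
    simp only [hw]
    rw [entropy_congr (fun q => mul_nonneg (hp _) (wordWeight_nonneg hp _)) _
      (fun q : Fin 3 × (Fin n → Fin 3) => (q.1, q.2)) (fun q q' => by simp),
      entropy_prod hp (wordWeight_nonneg hp) h1 (wordWeight_sum h1 n) (fun i => i) (fun w => w),
      hid, ih]
    push_cast
    ring

/-- **Exponential separation of exact-overlap parameters.** -/
theorem separation {lam : ℝ} (h0 : 0 < lam) (h1 : lam < 1) (ht : Transcendental ℚ lam)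
    (p : Fin 3 → ℝ) (hp : ∀ i, 0 ≤ p i) (hp1 : ∑ i, p i = 1) (η : ℝ)
    (hη : η < ∑ i, Real.negMulLog (p i)) :
    ∃ c : ℝ, 0 < c ∧ ∃ C : ℕ, ∀ (t t' : ℝ) (n n' : ℕ), 1 ≤ n → 1 ≤ n' →
      walkEntropy digitA digitB p lam t n ≤ η * n →
      walkEntropy digitA digitB p lam t' n' ≤ η * n' → t ≠ t' →
      c * lam ^ (C * (n + n')) ≤ |t - t'| := by
  classical
  set δ : ℝ := (∑ i, Real.negMulLog (p i) - η) / 2 with hδ
  have hδ0 : 0 < δ := by rw [hδ]; linarith
  obtain ⟨N, hN⟩ := collapse_relation digitA digitB p hp hp1 hδ0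
  set M : ℕ := 2 * (N * (N * N)) + 2 * (N * N) with hM
  obtain ⟨c, hc, hlow⟩ := sparse_lower h0 h1 ht M
  have hN4 : (0 : ℝ) < (N : ℝ) * N * ((N : ℝ) * N) + 1 := by positivity
  refine ⟨c / ((N : ℝ) * N * ((N : ℝ) * N) + 1), div_pos hc hN4, 4 * N,
    fun t t' n n' hn hn' hH hH' hne => ?_⟩
  have hcol : ∀ (s : ℝ) (k : ℕ), 1 ≤ k → walkEntropy digitA digitB p lam s k ≤ η * k →
      ∃ P Q : ℤ[X], Q ≠ 0 ∧ Bdd N k P ∧ Bdd N k Q ∧ aeval lam P = s * aeval lam Q := by
    intro s k hk hs
    refine hN lam s ht k hk ?_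
    rw [formal_entropy_three p hp hp1]
    have hk0 : (0 : ℝ) < k := by exact_mod_cast hk
    rw [hδ]
    nlinarith
  obtain ⟨P, Q, hQ, hPb, hQb, hPQ⟩ := hcol t n hn hH
  obtain ⟨P', Q', hQ', hPb', hQb', hPQ'⟩ := hcol t' n' hn' hH'
  set D : ℤ[X] := P * Q' - P' * Q with hD
  have hDev : aeval lam D = (t - t') * (aeval lam Q * aeval lam Q') := by
    rw [hD, map_sub, map_mul, map_mul, hPQ, hPQ']
    ring
  have hQl : aeval lam Q ≠ 0 := fun h => hQ (aeval_int_eq_zero ht h)
  have hQl' : aeval lam Q' ≠ 0 := fun h => hQ' (aeval_int_eq_zero ht h)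
  have hD0 : D ≠ 0 := by
    intro h
    rw [h, map_zero] at hDev
    rcases mul_eq_zero.mp hDev.symm with h' | h'
    · exact hne (sub_eq_zero.mp h')
    · exact (mul_ne_zero hQl hQl') h'
  have hDc : D.support.card ≤ M := by
    have hsub : D.support ⊆ (P * Q').support ∪ (P' * Q).support := by
      intro k hk
      rw [Polynomial.mem_support_iff, hD, Polynomial.coeff_sub] at hk
      simp only [Finset.mem_union, Polynomial.mem_support_iff]
      by_contra hc'
      push Not at hc'
      exact hk (by rw [hc'.1, hc'.2, sub_zero])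
    have e1 := le_trans (card_support_mul_le (P := P) (Q := Q')) (Nat.mul_le_mul hPb.1 hQb'.1)
    have e2 := le_trans (card_support_mul_le (P := P') (Q := Q)) (Nat.mul_le_mul hPb'.1 hQb.1)
    have e3 := le_trans (Finset.card_le_card hsub) (Finset.card_union_le _ _)
    omega
  have hDk : ∀ k, (D.coeff k).natAbs ≤ M := by
    intro k
    rw [hD, Polynomial.coeff_sub]
    have e1 := natAbs_coeff_mul_le hPb.1 hPb.2.1 hQb'.2.1 k
    have e2 := natAbs_coeff_mul_le hPb'.1 hPb'.2.1 hQb.2.1 k
    omega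
  have hDd : D.natDegree ≤ 4 * N * (n + n') := by
    refine le_trans (Polynomial.natDegree_sub_le _ _) (max_le ?_ ?_)
    · refine le_trans Polynomial.natDegree_mul_le ?_
      have := hPb.2.2; have := hQb'.2.2
      nlinarith
    · refine le_trans Polynomial.natDegree_mul_le ?_
      have := hPb'.2.2; have := hQb.2.2
      nlinarith
  have hmain := le_trans (mul_le_mul_of_nonneg_left
    (pow_le_pow_of_le_one h0.le h1.le hDd) hc.le) (hlow D hD0 hDc hDk)
  rw [hDev, abs_mul, abs_mul] at hmain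
  have b1 := abs_aeval_le h0.le h1.le hQb.1 hQb.2.1
  have b2 := abs_aeval_le h0.le h1.le hQb'.1 hQb'.2.1
  have b3 := mul_le_mul b1 b2 (abs_nonneg _) (by positivity)
  rw [div_mul_eq_mul_div, div_le_iff₀ hN4]
  nlinarith [abs_nonneg (t - t')]

/-- The coefficients of degree below `G` of the cross combination of two words. -/
noncomputable def lowPart (L0 L1 : ℤ[X]) (G : ℕ) (w : Fin G → ι) : Fin G → ℤ :=
  fun k => (L1 * digitPoly a w + L0 * digitPoly b w).coeff k

theorem block_lower {p : ι → ℝ} (hp : ∀ i, 0 ≤ p i) (h1 : ∑ i, p i = 1) {lam t : ℝ}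
    (h0 : lam ≠ 0) (ht : Transcendental ℚ lam) (P Q L0 L1 : ℤ[X]) (G : ℕ)
    (hPQ : aeval lam P = t * aeval lam Q)
    (hlow : ∀ k < G, P.coeff k = L0.coeff k ∧ Q.coeff k = L1.coeff k) (R : ℕ) :
    entropy (wordWeight p) (lowPart a b L0 L1 G) + walkEntropy a b p lam t R ≤
      walkEntropy a b p lam t (G + R) := by
  rw [walkEntropy_eq a b hp, walkEntropy_eq a b hp, ← entropy_append p]
  refine entropy_chain (wordWeight_nonneg hp) (wordWeight_nonneg hp) (wordWeight_sum h1 G)
    (wordWeight_sum h1 R) _ _ _ ?_ ?_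
  · intro q q' h
    have key : ∀ w : Fin (G + R) → ι, val a b lam t w * aeval lam Q =
        aeval lam (Q * digitPoly a w + P * digitPoly b w) := by
      intro w
      rw [val_eq, map_add, map_mul, map_mul, hPQ]
      ring
    have heq := aeval_int_inj ht ((key _).symm.trans ((congrArg (· * aeval lam Q) h).trans (key _)))
    funext k
    have hk := congrArg (fun F : ℤ[X] => F.coeff k) heq
    simp only [lowPart, Polynomial.coeff_add, Polynomial.coeff_mul] at hk ⊢
    have conv : ∀ (Z Z' : ℤ[X]) (c : ι → ℤ) (u : Fin G → ι) (v : Fin R → ι),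
        (∀ j < G, Z.coeff j = Z'.coeff j) →
        ∑ x ∈ Finset.HasAntidiagonal.antidiagonal (k : ℕ),
          Z.coeff x.1 * (digitPoly c (Fin.append u v)).coeff x.2 =
        ∑ x ∈ Finset.HasAntidiagonal.antidiagonal (k : ℕ),
          Z'.coeff x.1 * (digitPoly c u).coeff x.2 := by
      intro Z Z' c u v hZ
      refine Finset.sum_congr rfl fun x hx => ?_
      have := Finset.HasAntidiagonal.mem_antidiagonal.mp hx
      have hk2 := k.2
      rw [hZ x.1 (by omega), digitPoly_append, Polynomial.coeff_add,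
        Polynomial.coeff_X_pow_mul', if_neg (by omega), add_zero]
    simp only [conv Q L1 a _ _ (fun j hj => (hlow j hj).2),
      conv P L0 b _ _ (fun j hj => (hlow j hj).1)] at hk
    exact hk
  · intro u v v' h
    simp only [val_append] at h
    exact mul_left_cancel₀ (pow_ne_zero G h0) (add_left_cancel h)

theorem low_entropy_bound {p : ι → ℝ} (hp : ∀ i, 0 ≤ p i) (h1 : ∑ i, p i = 1) {lam t : ℝ}
    (ht : Transcendental ℚ lam) (L0 L1 : ℤ[X]) (D N : ℕ) (h0d : L0.natDegree ≤ D)
    (h1d : L1.natDegree ≤ D) (h0c : L0.support.card ≤ N) (h1c : L1.support.card ≤ N)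
    (h0k : ∀ k, (L0.coeff k).natAbs ≤ N) (h1k : ∀ k, (L1.coeff k).natAbs ≤ N)
    (hne : L0 ≠ 0 ∨ L1 ≠ 0) (hL : aeval lam L0 = t * aeval lam L1) (B : ℕ)
    (hB : ∀ i, (a i).natAbs ≤ B ∧ (b i).natAbs ≤ B) (G : ℕ) :
    walkEntropy a b p lam t G ≤ entropy (wordWeight p) (lowPart a b L0 L1 G) +
      Real.log ((((4 * (N * (N * B)) + 1) ^ (D + 1) : ℕ) : ℝ)) := by
  classical
  have hL1 : L1 ≠ 0 := by
    intro h
    rw [h, map_zero, mul_zero] at hL
    exact hne.elim (fun h' => h' (aeval_int_eq_zero ht hL)) (fun h' => h' h)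
  set F : (Fin G → ι) → ℤ[X] := fun w => L1 * digitPoly a w + L0 * digitPoly b w with hF
  have hval : ∀ w, val a b lam t w * aeval lam L1 = aeval lam (F w) := by
    intro w
    rw [val_eq, hF, map_add, map_mul, map_mul, hL]
    ring
  rw [walkEntropy_eq a b hp]
  refine le_trans (entropy_le_of_factor (wordWeight_nonneg hp) _ F fun x y h => ?_) ?_
  · refine mul_right_cancel₀ (fun h' => hL1 (aeval_int_eq_zero ht h')) ?_
    rw [hval, hval, h]
  refine entropy_le_add_log (wordWeight_nonneg hp) (wordWeight_sum h1 G) _ F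
    (fun x y h => by funext k; simpa [lowPart, hF] using congrArg (fun P : ℤ[X] => P.coeff k) h)
    _ fun x => ?_
  set K : ℕ := 2 * (N * (N * B)) with hK
  set T : Finset (Fin (D + 1) → ℤ) := Fintype.piFinset fun _ => Finset.Icc (-(K : ℤ)) (K : ℤ)
    with hT
  have hTc : T.card = (4 * (N * (N * B)) + 1) ^ (D + 1) := by
    simp only [hT, Fintype.card_piFinset, Int.card_Icc, Finset.prod_const, Finset.card_univ,
      Fintype.card_fin]
    congr 1
    omega
  rw [← hTc]
  refine Nat.cast_le.mpr ?_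
  refine Finset.card_le_card_of_injOn (fun P => fun j : Fin (D + 1) => P.coeff (G + (j : ℕ)))
    ?_ ?_
  · intro P hP
    obtain ⟨y, -, rfl⟩ := Finset.mem_image.mp hP
    simp only [hT, Finset.mem_coe, Fintype.mem_piFinset, Finset.mem_Icc]
    intro j
    have hc : ∀ (c : ι → ℤ), (∀ i, (c i).natAbs ≤ B) → ∀ k,
        ((digitPoly c y).coeff k).natAbs ≤ B := by
      intro c hc k
      rw [digitPoly_coeff]
      split_ifs
      · exact hc _
      · simp
    have e1 := natAbs_coeff_mul_le h1c h1k (hc a fun i => (hB i).1) (G + (j : ℕ))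
    have e2 := natAbs_coeff_mul_le h0c h0k (hc b fun i => (hB i).2) (G + (j : ℕ))
    simp only [hF, Polynomial.coeff_add]
    omega
  · intro P hP P' hP' hPP
    obtain ⟨y, hy, rfl⟩ := Finset.mem_image.mp hP
    obtain ⟨y', hy', rfl⟩ := Finset.mem_image.mp hP'
    simp only [Finset.mem_filter, Finset.mem_univ, true_and] at hy hy'
    ext k
    by_cases hk : k < G
    · exact congrFun (hy.trans hy'.symm) ⟨k, hk⟩
    by_cases hk2 : k < G + (D + 1)
    · have := congrFun hPP ⟨k - G, by omega⟩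
      simpa [show G + (k - G) = k by omega] using this
    have hz : ∀ (Z : ℤ[X]) (c : ι → ℤ) (w : Fin G → ι), Z.natDegree ≤ D →
        (Z * digitPoly c w).coeff k = 0 := by
      intro Z c w hZ
      rw [Polynomial.coeff_mul]
      refine Finset.sum_eq_zero fun x hx => ?_
      have := Finset.HasAntidiagonal.mem_antidiagonal.mp hx
      rw [digitPoly_coeff]
      by_cases hx2 : x.2 < G
      · rw [Polynomial.coeff_eq_zero_of_natDegree_lt (by omega), zero_mul]
      · rw [dif_neg hx2, mul_zero]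
    simp [hF, hz _ _ _ h1d, hz _ _ _ h0d]

theorem split_eval {lam ρ : ℝ} (h0 : 0 ≤ lam) (hρ : lam ≤ ρ) (hρ1 : ρ ≤ 1) (P : ℤ[X])
    (N e D φ : ℕ) (hc : P.support.card ≤ N) (hk : ∀ k, (P.coeff k).natAbs ≤ N)
    (hlo : ∀ k < e, P.coeff k = 0) (hgap : ∀ k, e + D < k → k ≤ e + φ → P.coeff k = 0) :
    ∃ L T : ℤ[X], P = X ^ e * (L + T) ∧ L.natDegree ≤ D ∧ L.support.card ≤ N ∧
      (∀ k, (L.coeff k).natAbs ≤ N) ∧ (∀ k ≤ D, L.coeff k = P.coeff (e + k)) ∧
      (∀ k ≤ φ, T.coeff k = 0) ∧ |aeval lam T| ≤ (N : ℝ) * N * ρ ^ φ := by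
  classical
  set L : ℤ[X] := ∑ k ∈ Finset.range (D + 1), Polynomial.monomial k (P.coeff (e + k)) with hL
  have hLc : ∀ k, L.coeff k = if k ≤ D then P.coeff (e + k) else 0 := by
    intro k
    simp only [hL, Polynomial.finsetSum_coeff, Polynomial.coeff_monomial, Finset.sum_ite_eq',
      Finset.mem_range, Nat.lt_succ_iff]
  obtain ⟨P', hP'⟩ : X ^ e ∣ P := Polynomial.X_pow_dvd_iff.mpr hlo
  have hP'c : ∀ k, P'.coeff k = P.coeff (e + k) := by
    intro k
    rw [hP', Polynomial.coeff_X_pow_mul', if_pos (by omega), Nat.add_sub_cancel_left]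
  set T : ℤ[X] := P' - L with hT
  have hTc : ∀ k, T.coeff k = if k ≤ D then 0 else P.coeff (e + k) := by
    intro k
    rw [hT, Polynomial.coeff_sub, hP'c, hLc]
    split_ifs <;> simp
  have hsupp : ∀ Z : ℤ[X], (∀ k, Z.coeff k ≠ 0 → P.coeff (e + k) ≠ 0) → Z.support.card ≤ N := by
    intro Z hZ
    refine le_trans (Finset.card_le_card_of_injOn (fun k => e + k) ?_ ?_) hc
    · intro k hk'
      exact Polynomial.mem_support_iff.mpr (hZ k (Polynomial.mem_support_iff.mp hk'))
    · intro k _ k' _ h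
      simp only at h
      omega
  refine ⟨L, T, ?_, ?_, hsupp L ?_, ?_, ?_, ?_, ?_⟩
  · rw [hT, add_sub_cancel, hP']
  · rw [Polynomial.natDegree_le_iff_coeff_eq_zero]
    intro k hk'
    rw [hLc, if_neg (by omega)]
  · intro k hk'
    rw [hLc] at hk'
    split_ifs at hk' with h
    · exact hk'
    · exact absurd rfl hk'
  · intro k
    rw [hLc]
    split_ifs
    · exact hk _
    · simp
  · intro k hk'
    rw [hLc, if_pos hk']
  · intro k hk'
    rw [hTc]
    split_ifs with h
    · rfl
    · exact hgap _ (by omega) (by omega)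
  · have hTφ : ∀ k ≤ φ, T.coeff k = 0 := by
      intro k hk'
      rw [hTc]
      split_ifs with h
      · rfl
      · exact hgap _ (by omega) (by omega)
    obtain ⟨T', hT'⟩ : X ^ φ ∣ T := Polynomial.X_pow_dvd_iff.mpr fun k hk' => hTφ k hk'.le
    have hT'c : ∀ k, T'.coeff k = T.coeff (φ + k) := by
      intro k
      rw [hT', Polynomial.coeff_X_pow_mul', if_pos (by omega), Nat.add_sub_cancel_left]
    have hT's : T'.support.card ≤ N := by
      refine le_trans (Finset.card_le_card_of_injOn (fun k => e + (φ + k)) ?_ ?_) hc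
      · intro k hk'
        have h2 := Polynomial.mem_support_iff.mp hk'
        rw [hT'c, hTc] at h2
        refine Polynomial.mem_support_iff.mpr ?_
        split_ifs at h2 with h
        · exact absurd rfl h2
        · exact h2
      · intro k _ k' _ h
        simp only at h
        omega
    have hb := abs_aeval_le h0 (le_trans hρ hρ1) hT's (fun k => by
      rw [hT'c, hTc]
      split_ifs
      · simp
      · exact hk _)
    rw [hT', map_mul, map_pow, Polynomial.aeval_X, abs_mul, abs_pow, abs_of_nonneg h0]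
    calc lam ^ φ * |aeval lam T'| ≤ ρ ^ φ * ((N : ℝ) * N) :=
          mul_le_mul (pow_le_pow_left₀ h0 hρ φ) hb (abs_nonneg _) (pow_nonneg (le_trans h0 hρ) _)
      _ = _ := by ring

/-- **Lower semicontinuity of the random-walk entropy rate** at transcendental contractions. -/
theorem entropy_rate_lsc (p : ι → ℝ) (hp : ∀ i, 0 ≤ p i) (hp1 : ∑ i, p i = 1) {lam t : ℝ}
    (h0 : 0 < lam) (h1 : lam < 1) (ht : Transcendental ℚ lam) (η : ℝ)
    (hη : η < hRW a b p lam t) :
    ∃ ε : ℝ, 0 < ε ∧ ∀ lam' t' : ℝ, Transcendental ℚ lam' → |lam' - lam| < ε → |t' - t| < ε →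
      η < hRW a b p lam' t' := by
  classical
  set h : ℝ := hRW a b p lam t with hh
  set η1 : ℝ := (η + h) / 2 with hη1
  have hη1h : η1 < h := by rw [hη1]; linarith
  have hηη1 : η < η1 := by rw [hη1]; linarith
  set δ : ℝ := h - η1 with hδ
  have hδ0 : 0 < δ := by rw [hδ]; linarith
  obtain ⟨N, hN⟩ := collapse_relation a b p hp hp1 hδ0
  set B : ℕ := Finset.univ.sup fun i => (a i).natAbs + (b i).natAbs with hB
  have hBi : ∀ i, (a i).natAbs ≤ B ∧ (b i).natAbs ≤ B := fun i => by
    have := Finset.le_sup (f := fun i => (a i).natAbs + (b i).natAbs) (Finset.mem_univ i)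
    omega
  set ρ : ℝ := (1 + lam) / 2 with hρ
  have hρ1 : ρ < 1 := by rw [hρ]; linarith
  have hρ0 : lam < ρ := by rw [hρ]; linarith
  -- the finitely many low parts at each level
  set Low : ℕ → Finset (ℤ[X] × ℤ[X]) := fun D =>
    (((Fintype.piFinset fun _ : Fin (D + 1) => Finset.Icc (-(N : ℤ)) (N : ℤ)).image
      fun c => ∑ k : Fin (D + 1), Polynomial.monomial (k : ℕ) (c k)) ×ˢ
    ((Fintype.piFinset fun _ : Fin (D + 1) => Finset.Icc (-(N : ℤ)) (N : ℤ)).image
      fun c => ∑ k : Fin (D + 1), Polynomial.monomial (k : ℕ) (c k))) with hLow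
  have hmemLow : ∀ D (L0 L1 : ℤ[X]), L0.natDegree ≤ D → L1.natDegree ≤ D →
      (∀ k, (L0.coeff k).natAbs ≤ N) → (∀ k, (L1.coeff k).natAbs ≤ N) → (L0, L1) ∈ Low D := by
    intro D L0 L1 hd0 hd1 hk0 hk1
    have one : ∀ L : ℤ[X], L.natDegree ≤ D → (∀ k, (L.coeff k).natAbs ≤ N) →
        L ∈ (Fintype.piFinset fun _ : Fin (D + 1) => Finset.Icc (-(N : ℤ)) (N : ℤ)).image
          fun c => ∑ k : Fin (D + 1), Polynomial.monomial (k : ℕ) (c k) := by
      intro L hd hk
      refine Finset.mem_image.mpr ⟨fun k => L.coeff k, ?_, ?_⟩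
      · simp only [Fintype.mem_piFinset, Finset.mem_Icc]
        intro k
        have := hk k
        omega
      · rw [Fin.sum_univ_eq_sum_range (fun k => Polynomial.monomial k (L.coeff k))]
        exact (L.as_sum_range' (D + 1) (by omega)).symm
    exact Finset.mem_product.mpr ⟨one L0 hd0 hk0, one L1 hd1 hk1⟩
  have hgap : ∀ D, ∃ γ : ℝ, 0 < γ ∧ ∀ L ∈ Low D, aeval lam L.1 - t * aeval lam L.2 ≠ 0 →
      γ ≤ |aeval lam L.1 - t * aeval lam L.2| := by
    intro D
    set S : Finset ℝ := ((Low D).filter fun L => aeval lam L.1 - t * aeval lam L.2 ≠ 0).image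
      fun L => |aeval lam L.1 - t * aeval lam L.2| with hS
    rcases S.eq_empty_or_nonempty with hE | hE
    · refine ⟨1, one_pos, fun L hL hne => ?_⟩
      have : |aeval lam L.1 - t * aeval lam L.2| ∈ S :=
        Finset.mem_image.mpr ⟨L, Finset.mem_filter.mpr ⟨hL, hne⟩, rfl⟩
      simp [hE] at this
    · refine ⟨S.min' hE, ?_, fun L hL hne => S.min'_le _
        (Finset.mem_image.mpr ⟨L, Finset.mem_filter.mpr ⟨hL, hne⟩, rfl⟩)⟩
      obtain ⟨L, hL, hLe⟩ := Finset.mem_image.mp (S.min'_mem hE)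
      rw [← hLe]
      exact abs_pos.mpr (Finset.mem_filter.mp hL).2
  choose γ hγ0 hγ using hgap
  -- the gap width at each level
  set Kc : ℕ → ℝ := fun D => Real.log ((((4 * (N * (N * B)) + 1) ^ (D + 1) : ℕ) : ℝ)) with hKc
  have hφex : ∀ D, ∃ φ : ℕ, 1 ≤ φ ∧ D ≤ φ ∧ Kc D < φ * δ ∧
      (N : ℝ) * N * ρ ^ φ * (2 + |t|) < γ D / 4 := by
    intro D
    have e1 : ∀ᶠ φ : ℕ in Filter.atTop, Kc D < φ * δ :=
      (tendsto_natCast_atTop_atTop.atTop_mul_const hδ0).eventually_gt_atTop (Kc D)
    have hlim : Filter.Tendsto (fun φ : ℕ => (N : ℝ) * N * ρ ^ φ * (2 + |t|)) Filter.atTop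
        (nhds 0) := by
      simpa using ((tendsto_pow_atTop_nhds_zero_of_lt_one (by linarith) hρ1).const_mul
        ((N : ℝ) * N)).mul_const (2 + |t|)
    have e2 := hlim.eventually (gt_mem_nhds (show (0 : ℝ) < γ D / 4 by linarith [hγ0 D]))
    obtain ⟨φ, ⟨h1', h2'⟩, h3', h4'⟩ := (((Filter.eventually_ge_atTop 1).and
      (Filter.eventually_ge_atTop D)).and (e1.and e2)).exists
    exact ⟨φ, h1', h2', h3', h4'⟩
  choose φ hφ1 hφD hφK hφt using hφex
  obtain ⟨Dmax, hDmax⟩ := exists_gap N φ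
  -- continuity of the finitely many low parts
  have hcont : ∀ᶠ q : ℝ × ℝ in nhds (lam, t),
      ∀ D ∈ Finset.range (Dmax + 1), ∀ L ∈ Low D,
        |(aeval q.1 L.1 - q.2 * aeval q.1 L.2) - (aeval lam L.1 - t * aeval lam L.2)| <
          γ D / 4 := by
    refine (Filter.eventually_all_finset _).mpr fun D _ =>
      (Filter.eventually_all_finset _).mpr fun L _ => ?_
    have hc : Continuous fun q : ℝ × ℝ =>
        |(aeval q.1 L.1 - q.2 * aeval q.1 L.2) - (aeval lam L.1 - t * aeval lam L.2)| := by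
      refine Continuous.abs (Continuous.sub (Continuous.sub ?_ (continuous_snd.mul ?_))
        continuous_const)
      · exact (Polynomial.continuous_aeval L.1).comp continuous_fst
      · exact (Polynomial.continuous_aeval L.2).comp continuous_fst
    refine (hc.tendsto (lam, t)).eventually (gt_mem_nhds ?_)
    simpa using (show (0 : ℝ) < γ D / 4 by linarith [hγ0 D])
  obtain ⟨ε0, hε0, hball⟩ := Metric.eventually_nhds_iff.mp hcont
  refine ⟨min ε0 (min 1 (min lam (ρ - lam))), ?_, fun lam' t' ht' hl hts => ?_⟩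
  · refine lt_min hε0 (lt_min one_pos (lt_min h0 (by linarith)))
  simp only [lt_min_iff] at hl hts
  have hl0 : 0 < lam' := by have := (abs_lt.mp hl.2.2.1).1; linarith
  have hlρ : lam' ≤ ρ := by have := (abs_lt.mp hl.2.2.2).2; linarith
  by_contra hcon
  push Not at hcon
  obtain ⟨k, hk⟩ := exists_lt_of_ciInf_lt (lt_of_le_of_lt hcon hηη1)
  rw [div_lt_iff₀ (by positivity)] at hk
  set n : ℕ := k + 1 with hn
  have hHn : walkEntropy a b p lam' t' n < η1 * n := by
    rw [hn]; push_cast; exact hk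
  have hform : walkEntropy a b p lam t n ≤
      entropy (wordWeight p (n := n)) (fun w => (digitPoly a w, digitPoly b w)) := by
    rw [walkEntropy_eq a b hp]
    refine entropy_le_of_factor (wordWeight_nonneg hp) _ _ fun x y hxy => ?_
    simp only [Prod.mk.injEq] at hxy
    simp only [val_eq, hxy.1, hxy.2]
  have hhn := hRW_le a b hp hp1 lam t (n := n) (by omega)
  rw [← hh] at hhn
  obtain ⟨P, Q, hQ, hPb, hQb, hPQ⟩ := hN lam' t' ht' n (by omega) (by rw [hδ]; linarith)
  obtain ⟨e, D, hD, hlo, hhead, hgap'⟩ := hDmax P Q (Or.inr hQ) hPb.1 hQb.1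
  obtain ⟨L0, T0, hP0, hL0d, hL0c, hL0k, hL0e, hT00, hT0b⟩ :=
    split_eval hl0.le hlρ hρ1.le P N e D (φ D) hPb.1 hPb.2.1 (fun k hk => (hlo k hk).1)
      (fun k h1' h2' => (hgap' k h1' h2').1)
  obtain ⟨L1, T1, hQ1, hL1d, hL1c, hL1k, hL1e, hT10, hT1b⟩ :=
    split_eval hl0.le hlρ hρ1.le Q N e D (φ D) hQb.1 hQb.2.1 (fun k hk => (hlo k hk).2)
      (fun k h1' h2' => (hgap' k h1' h2').2)
  have hLne : L0 ≠ 0 ∨ L1 ≠ 0 := by
    rcases hhead with hh' | hh'
    · exact Or.inl fun h' => hh' (by simpa [h'] using (hL0e 0 (Nat.zero_le _)).symm)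
    · exact Or.inr fun h' => hh' (by simpa [h'] using (hL1e 0 (Nat.zero_le _)).symm)
  have hrel : aeval lam' (L0 + T0) = t' * aeval lam' (L1 + T1) := by
    have hPQ2 := hPQ
    rw [hP0, hQ1, map_mul, map_mul, map_pow, Polynomial.aeval_X] at hPQ2
    refine mul_left_cancel₀ (pow_ne_zero e hl0.ne') ?_
    linarith
  have hL : (L0, L1) ∈ Low D := hmemLow D L0 L1 hL0d hL1d hL0k hL1k
  by_cases hz : aeval lam L0 - t * aeval lam L1 = 0
  · -- the limit satisfies the low relation, so each block carries the limit entropy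
    set G : ℕ := φ D with hG
    set Hψ : ℝ := entropy (wordWeight p) (lowPart a b L0 L1 G) with hHψ
    have hblock : ∀ R, Hψ + walkEntropy a b p lam' t' R ≤ walkEntropy a b p lam' t' (G + R) :=
      fun R => block_lower a b hp hp1 hl0.ne' ht' (L0 + T0) (L1 + T1) L0 L1 G hrel
        (fun j hj => by simp [hT00 j hj.le, hT10 j hj.le]) R
    have hmul : ∀ j : ℕ, (j : ℝ) * Hψ ≤ walkEntropy a b p lam' t' (j * G) := by
      intro j
      induction j with
      | zero => simp [walkEntropy_zero a b hp]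
      | succ j ih =>
        have := hblock (j * G)
        rw [Nat.succ_mul, Nat.add_comm (j * G) G]
        push_cast
        linarith
    have hlowb := low_entropy_bound a b (t := t) hp hp1 ht L0 L1 D N hL0d hL1d hL0c hL1c hL0k hL1k hLne
      (by linarith) B hBi G
    have hGe := hRW_le a b hp hp1 lam t (n := G) (hφ1 D)
    rw [← hh] at hGe
    have hK := hφK D
    simp only [hKc, ← hG] at hK
    have hGψ : η1 * G ≤ Hψ := by rw [hδ] at hK; linarith
    have h4 := hmul n
    have h5 := walkEntropy_mul a b hp hp1 lam' t' G n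
    rw [Nat.mul_comm n G] at h4
    have hG0 : (0 : ℝ) < G := by exact_mod_cast hφ1 D
    have hn0 : (0 : ℝ) ≤ n := Nat.cast_nonneg _
    have h6 := mul_le_mul_of_nonneg_left hGψ hn0
    have h7 := mul_lt_mul_of_pos_left hHn hG0
    nlinarith
  · -- otherwise the relation cannot hold nearby
    have hg := hγ D (L0, L1) hL hz
    have hc := hball (y := (lam', t')) (by
      rw [Prod.dist_eq, Real.dist_eq, Real.dist_eq]
      exact max_lt hl.1 hts.1) D (Finset.mem_range.mpr (by omega)) (L0, L1) hL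
    have ht'b : |t'| ≤ 1 + |t| := by
      have := abs_sub_abs_le_abs_sub t' t
      linarith [hts.2.1]
    have hsum : aeval lam' L0 - t' * aeval lam' L1 =
        t' * aeval lam' T1 - aeval lam' T0 := by
      rw [map_add, map_add] at hrel
      linarith
    have htail : |aeval lam' L0 - t' * aeval lam' L1| ≤
        (N : ℝ) * N * ρ ^ φ D * (2 + |t|) := by
      rw [hsum]
      refine le_trans (abs_sub _ _) ?_
      rw [abs_mul]
      have := mul_le_mul ht'b hT1b (abs_nonneg _) (by positivity)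
      linarith
    have h8 := hφt D
    have h9 := abs_sub_abs_le_abs_sub (aeval lam L0 - t * aeval lam L1)
      (aeval lam' L0 - t' * aeval lam' L1)
    rw [abs_sub_comm] at hc
    simp only at hg hc
    linarith [hγ0 D]

end Vale.Agent.P114
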