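import Mathlib

/-!
# Triangular bases for finitely generated groups of integer polynomials
-/

namespace Vale.Agent.P114

open Polynomial

/-- The integer span of finitely many integer polynomials has a triangular basis, indexed by the
finite set `J` of orders of vanishing of its nonzero elements. -/
theorem exists_triangular {K : Type*} [Fintype K] (v : K → ℤ[X]) :
    ∃ (J : Finset ℕ) (e : J → ℤ[X]) (g : Matrix K J ℤ) (c : Matrix J K ℤ),
      (∀ k, e k = ∑ a, g a k • v a) ∧ (∀ a, v a = ∑ k, c k a • e k) ∧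
      (∀ k : J, (∀ i < (k : ℕ), (e k).coeff i = 0) ∧ (e k).coeff k ≠ 0) ∧
      (∀ x : K → ℤ, (∑ a, x a • v a) ≠ 0 →
        ∃ k : J, (∀ i < (k : ℕ), (∑ a, x a • v a).coeff i = 0) ∧
          (∑ a, x a • v a).coeff k ≠ 0) ∧
      (∀ k : J, (k : ℕ) ≤ Finset.univ.sup fun a => (v a).natDegree) := by
  classical
  set D : ℕ := Finset.univ.sup fun a => (v a).natDegree with hD
  set L : (K → ℤ) →ₗ[ℤ] ℤ[X] := Fintype.linearCombination ℤ v with hL
  have hLap : ∀ x, L x = ∑ a, x a • v a := fun x => by
    rw [hL, Fintype.linearCombination_apply]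
  have hdeg : ∀ x i, D < i → (L x).coeff i = 0 := by
    intro x i hi
    rw [hLap, Polynomial.finsetSum_coeff]
    refine Finset.sum_eq_zero fun a _ => ?_
    rw [Polynomial.coeff_smul, Polynomial.coeff_eq_zero_of_natDegree_lt, smul_zero]
    exact lt_of_le_of_lt (Finset.le_sup (f := fun a => (v a).natDegree) (Finset.mem_univ a)) hi
  set J : Finset ℕ := (Finset.range (D + 1)).filter
    (fun k => ∃ x, (∀ i < k, (L x).coeff i = 0) ∧ (L x).coeff k ≠ 0) with hJ
  have hmin : ∀ k : J, ∃ x, (∀ i < (k : ℕ), (L x).coeff i = 0) ∧ (L x).coeff k ≠ 0 ∧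
      ∀ y, (∀ i < (k : ℕ), (L y).coeff i = 0) → (L x).coeff k ∣ (L y).coeff k := by
    intro k
    have hk := (Finset.mem_filter.mp k.2).2
    have hex : ∃ n : ℕ, ∃ x, (∀ i < (k : ℕ), (L x).coeff i = 0) ∧ (L x).coeff k ≠ 0 ∧
        ((L x).coeff k).natAbs = n := by
      obtain ⟨x, h1, h2⟩ := hk
      exact ⟨_, x, h1, h2, rfl⟩
    obtain ⟨x, h1, h2, h3⟩ := Nat.find_spec hex
    refine ⟨x, h1, h2, fun y hy => ?_⟩
    set q := (L y).coeff k / (L x).coeff k with hq
    have hz : ∀ i, (L (y - q • x)).coeff i = (L y).coeff i - q * (L x).coeff i := by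
      intro i
      rw [map_sub, map_smul, Polynomial.coeff_sub, Polynomial.coeff_smul, smul_eq_mul]
    have hlow : ∀ i < (k : ℕ), (L (y - q • x)).coeff i = 0 := by
      intro i hi
      rw [hz, hy i hi, h1 i hi, mul_zero, sub_zero]
    have hr : (L (y - q • x)).coeff k = (L y).coeff k % (L x).coeff k := by
      rw [hz, hq, Int.emod_def]
      ring
    by_contra hnd
    have hne : (L (y - q • x)).coeff k ≠ 0 := by
      rw [hr]
      exact fun h => hnd (Int.dvd_of_emod_eq_zero h)
    have hle : Nat.find hex ≤ ((L (y - q • x)).coeff k).natAbs :=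
      Nat.find_le ⟨_, hlow, hne, rfl⟩
    have h5 : ((L y).coeff k % (L x).coeff k).natAbs < ((L x).coeff k).natAbs := by
      have h5' := Int.emod_lt_abs ((L y).coeff k) h2
      have h6 := Int.emod_nonneg ((L y).coeff k) h2
      rw [Int.abs_eq_natAbs] at h5'
      omega
    rw [hr, ← h3] at hle
    omega
  choose g0 hg1 hg2 hg3 using hmin
  set e : J → ℤ[X] := fun k => L (g0 k) with he
  have hmem : ∀ x k, (∀ i < k, (L x).coeff i = 0) → (L x).coeff k ≠ 0 → k ∈ J := by
    intro x k h1 h2
    refine Finset.mem_filter.mpr ⟨Finset.mem_range.mpr ?_, x, h1, h2⟩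
    by_contra h
    exact h2 (hdeg x k (by omega))
  have hred : ∀ d k, k + d = D + 1 → ∀ x, (∀ i < k, (L x).coeff i = 0) →
      ∃ c : J → ℤ, L x = ∑ j, c j • e j := by
    intro d
    induction d with
    | zero =>
      intro k hk x hx
      refine ⟨0, ?_⟩
      have : L x = 0 := by
        ext i
        rcases lt_or_ge i k with h | h
        · simpa using hx i h
        · simpa using hdeg x i (by omega)
      simp [this]
    | succ d ih =>
      intro k hk x hx
      by_cases h0 : (L x).coeff k = 0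
      · refine ih (k + 1) (by omega) x fun i hi => ?_
        rcases Nat.lt_succ_iff_lt_or_eq.mp hi with h | h
        · exact hx i h
        · exact h ▸ h0
      · have hkJ := hmem x k hx h0
        obtain ⟨q, hq⟩ := hg3 ⟨k, hkJ⟩ x hx
        obtain ⟨c, hc⟩ := ih (k + 1) (by omega) (x - q • g0 ⟨k, hkJ⟩) (fun i hi => by
          rw [map_sub, map_smul, Polynomial.coeff_sub, Polynomial.coeff_smul, smul_eq_mul]
          rcases Nat.lt_succ_iff_lt_or_eq.mp hi with h | h
          · rw [hx i h, hg1 ⟨k, hkJ⟩ i h]; simp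
          · subst h
            have hq' : (L x).coeff i = (L (g0 ⟨i, hkJ⟩)).coeff i * q := hq
            rw [hq']; ring)
        refine ⟨fun j => c j + (if j = ⟨k, hkJ⟩ then q else 0), ?_⟩
        rw [map_sub, map_smul] at hc
        simp only [add_smul, Finset.sum_add_distrib, ite_smul, zero_smul, Finset.sum_ite_eq',
          Finset.mem_univ, if_true]
        rw [← hc]
        simp only [he]
        abel
  have hrep : ∀ x, ∃ c : J → ℤ, L x = ∑ j, c j • e j := fun x =>
    hred (D + 1) 0 (by omega) x fun i hi => absurd hi (by omega)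
  have hbasis : ∀ a, ∃ c : J → ℤ, v a = ∑ j, c j • e j := by
    intro a
    obtain ⟨c, hc⟩ := hrep (Pi.single a 1)
    refine ⟨c, ?_⟩
    rw [← hc, hLap]
    simp [Pi.single_apply, ite_smul]
  choose cm hcm using hbasis
  refine ⟨J, e, fun a k => g0 k a, fun k a => cm a k, fun k => hLap (g0 k), hcm,
    fun k => ⟨hg1 k, hg2 k⟩, ?_, ?_⟩
  · intro x hx
    rw [← hLap] at hx ⊢
    refine ⟨⟨(L x).natTrailingDegree, hmem x _ (fun i hi => ?_) ?_⟩, fun i hi => ?_, ?_⟩
    · exact Polynomial.coeff_eq_zero_of_lt_natTrailingDegree hi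
    · exact Polynomial.trailingCoeff_nonzero_iff_nonzero.mpr hx
    · exact Polynomial.coeff_eq_zero_of_lt_natTrailingDegree hi
    · exact Polynomial.trailingCoeff_nonzero_iff_nonzero.mpr hx
  · intro k
    have := Finset.mem_range.mp (Finset.mem_filter.mp k.2).1
    omega

end Vale.Agent.P114
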