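import Vale.Agent.P114.Det
import Vale.Agent.P114.Tri

/-!
# Sparse relations between integer polynomials of bounded height

If a tuple `A` of integer polynomials has a real multiplier `u` with constant term at least `κ`
in absolute value and `∑ i, ‖u * A i‖² ≤ 1` (squares of coefficients), then the tuple has a
nonzero relation whose entries have boundedly many terms and bounded coefficients.
-/

namespace Vale.Agent.P114

open Polynomial
open scoped Pointwise

/-- `P` has at most `N` terms, coefficients at most `N`, and degree at most `N * (n + 1)`. -/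
def Bdd (N n : ℕ) (P : ℤ[X]) : Prop :=
  P.support.card ≤ N ∧ (∀ k, (P.coeff k).natAbs ≤ N) ∧ P.natDegree ≤ N * (n + 1)

/-- An integer polynomial as a real polynomial. -/
noncomputable abbrev rp (P : ℤ[X]) : ℝ[X] := P.map (Int.castRingHom ℝ)

/-- The squared coefficient mass of a tuple of real polynomials on a set of exponents. -/
noncomputable def mass {m : ℕ} (f : Fin m → ℝ[X]) (T : Finset ℕ) : ℝ :=
  ∑ i, ∑ x ∈ T, (f i).coeff x ^ 2

/-- The gain of one step. -/
noncomputable def gain (m : ℕ) (κ : ℝ) : ℝ := (κ ^ m / 8) ^ 10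

theorem gain_pos {m : ℕ} {κ : ℝ} (h : 0 < κ) : 0 < gain m κ := by unfold gain; positivity

theorem mass_mono {m : ℕ} (f : Fin m → ℝ[X]) {T T' : Finset ℕ} (h : T ⊆ T') :
    mass f T ≤ mass f T' :=
  Finset.sum_le_sum fun _ _ =>
    Finset.sum_le_sum_of_subset_of_nonneg h fun _ _ _ => sq_nonneg _

theorem mass_union {m : ℕ} (f : Fin m → ℝ[X]) {T T' : Finset ℕ} (h : Disjoint T T') :
    mass f (T ∪ T') = mass f T + mass f T' := by
  unfold mass
  rw [← Finset.sum_add_distrib]
  exact Finset.sum_congr rfl fun i _ => Finset.sum_union h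

theorem coeff_u_mul {u : ℝ[X]} {E : ℤ[X]} {k : ℕ} (h : ∀ i < k, E.coeff i = 0) :
    (∀ i < k, (u * rp E).coeff i = 0) ∧ (u * rp E).coeff k = u.coeff 0 * (E.coeff k : ℝ) := by
  constructor
  · intro i hi
    rw [Polynomial.coeff_mul]
    refine Finset.sum_eq_zero fun x hx => ?_
    have := Finset.HasAntidiagonal.mem_antidiagonal.mp hx
    simp [rp, Polynomial.coeff_map, h x.2 (by omega)]
  · rw [Polynomial.coeff_mul, Finset.sum_eq_single (0, k)]
    · simp [rp, Polynomial.coeff_map]
    · intro x hx hne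
      have h1 := Finset.HasAntidiagonal.mem_antidiagonal.mp hx
      have h2 : x.2 < k := by
        rcases Nat.eq_zero_or_pos x.1 with h0 | h0
        · exact absurd (Prod.ext h0 (by simp only; omega)) hne
        · omega
      simp [rp, Polynomial.coeff_map, h x.2 h2]
    · intro hn
      exact absurd (Finset.HasAntidiagonal.mem_antidiagonal.mpr (by simp)) hn

/-- The coefficient bound for the small relation. -/
noncomputable def coefBd (m s : ℕ) (κ : ℝ) : ℕ := ⌈(4 * m * s / κ + 8) ^ 3⌉₊ + 1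

/-- The pigeonhole half of a step. -/
theorem step_small {m : ℕ} (hm : 2 ≤ m) {κ : ℝ} (hκ0 : 0 < κ) (A : Fin m → ℤ[X])
    (u : ℝ[X]) (hu : κ ≤ |u.coeff 0|) (S : Finset ℕ) (hSpos : 0 < S.card)
    (v : Fin m × S → ℤ[X]) (hv : v = fun a => X ^ (a.2 : ℕ) * A a.1) (J : Finset ℕ)
    (hord : ∀ x : Fin m × S → ℤ, (∑ a, x a • v a) ≠ 0 →
      ∃ k : J, (∀ i < (k : ℕ), (∑ a, x a • v a).coeff i = 0) ∧
        (∑ a, x a • v a).coeff k ≠ 0)
    (M : Matrix J (Fin m × S) ℝ) (hM : M = fun (j : J) a => (u * rp (v a)).coeff (j : ℕ))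
    (hM1 : ∀ j a, |M j a| ≤ 1) (hsmall : J.card * 2 < 3 * S.card) :
    ∃ P : Fin m → ℤ[X], (∃ i, P i ≠ 0) ∧ ∑ i, P i * A i = 0 ∧
        ∀ i, (P i).support ⊆ S ∧ ∀ k, ((P i).coeff k).natAbs ≤ coefBd m S.card κ := by
  classical
  set L : ℕ := coefBd m S.card κ with hL
  set Aq : ℝ := 4 * m * S.card / κ + 8 with hAq
  set K : ℕ := ⌈2 * (L : ℝ) * m * S.card / κ⌉₊ with hK
  clear_value L Aq K
  set val : (Fin m × S → ℤ) → J → ℝ := fun x j => ∑ a, (x a : ℝ) * M j a with hval
  set cell : (Fin m × S → ℤ) → (J → ℤ) := fun x j => ⌊val x j * 2 / κ⌋ with hcell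
  set box : Finset (Fin m × S → ℤ) := Fintype.piFinset fun _ => Finset.Icc 0 (L : ℤ) with hbox
  set tgt : Finset (J → ℤ) := Fintype.piFinset fun _ => Finset.Icc (-(K : ℤ)) (K : ℤ) with htgt
  have hmap : ∀ x ∈ box, cell x ∈ tgt := by
    intro x hx
    simp only [hbox, Fintype.mem_piFinset, Finset.mem_Icc] at hx
    simp only [htgt, hcell, Fintype.mem_piFinset, Finset.mem_Icc]
    intro j
    have h1 : |val x j| ≤ (L : ℝ) * m * S.card := by
      calc |val x j| ≤ ∑ a, |(x a : ℝ) * M j a| := Finset.abs_sum_le_sum_abs _ _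
        _ ≤ ∑ _a : Fin m × S, (L : ℝ) := by
            refine Finset.sum_le_sum fun a _ => ?_
            rw [abs_mul]
            have h2 : |(x a : ℝ)| ≤ L := by
              rw [abs_of_nonneg (by exact_mod_cast (hx a).1)]
              exact_mod_cast (hx a).2
            calc |(x a : ℝ)| * |M j a| ≤ (L : ℝ) * 1 :=
                  mul_le_mul h2 (hM1 j a) (abs_nonneg _) (Nat.cast_nonneg _)
              _ = L := mul_one _
        _ = _ := by simp; ring
    obtain ⟨h2, h3⟩ := abs_le.mp h1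
    have hKle : 2 * (L : ℝ) * m * S.card / κ ≤ K := hK ▸ Nat.le_ceil _
    rw [div_le_iff₀ hκ0] at hKle
    constructor
    · rw [Int.le_floor, le_div_iff₀ hκ0]
      push_cast
      nlinarith
    · rw [← Int.lt_add_one_iff, Int.floor_lt, div_lt_iff₀ hκ0]
      push_cast
      nlinarith
  have hcount : tgt.card < box.card := by
    simp only [htgt, hbox, Fintype.card_piFinset, Finset.prod_const, Finset.card_univ,
      Fintype.card_prod, Fintype.card_fin, Fintype.card_coe, Int.card_Icc]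
    have e1 : ((K : ℤ) + 1 - -(K : ℤ)).toNat = 2 * K + 1 := by omega
    have e2 : ((L : ℤ) + 1 - 0).toNat = L + 1 := by omega
    rw [e1, e2]
    have hA3 : Aq ^ 3 < (L : ℝ) + 1 := by
      have := Nat.le_ceil (Aq ^ 3)
      rw [hL, coefBd, ← hAq]
      push_cast
      linarith
    have hK2 : ((2 * K + 1 : ℕ) : ℝ) ≤ Aq * ((L : ℝ) + 1) := by
      have h1 : (K : ℝ) < 2 * (L : ℝ) * m * S.card / κ + 1 :=
        hK ▸ Nat.ceil_lt_add_one (by positivity)
      have h2 : 2 * (2 * (L : ℝ) * m * S.card / κ) = 4 * m * S.card / κ * L := by ring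
      have h3 : 0 ≤ 4 * (m : ℝ) * S.card / κ := by positivity
      have h4 : (0 : ℝ) ≤ L := Nat.cast_nonneg _
      push_cast
      rw [hAq]
      nlinarith
    have hAq0 : 0 ≤ Aq := by rw [hAq]; positivity
    have h34 : (2 * K + 1) ^ 3 < (L + 1) ^ 4 := by
      have : ((2 * K + 1 : ℕ) : ℝ) ^ 3 < ((L + 1 : ℕ) : ℝ) ^ 4 := by
        calc ((2 * K + 1 : ℕ) : ℝ) ^ 3 ≤ (Aq * ((L : ℝ) + 1)) ^ 3 :=
              pow_le_pow_left₀ (Nat.cast_nonneg _) hK2 3
          _ = Aq ^ 3 * ((L : ℝ) + 1) ^ 3 := by ring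
          _ < ((L : ℝ) + 1) * ((L : ℝ) + 1) ^ 3 := by
              exact mul_lt_mul_of_pos_right hA3 (by positivity)
          _ = _ := by push_cast; ring
      exact_mod_cast this
    have hsq : ((2 * K + 1) ^ J.card) ^ 2 < ((L + 1) ^ (m * S.card)) ^ 2 := by
      rw [← pow_mul, ← pow_mul]
      calc (2 * K + 1) ^ (J.card * 2) ≤ (2 * K + 1) ^ (3 * S.card) :=
            Nat.pow_le_pow_right (by omega) (by omega)
        _ = ((2 * K + 1) ^ 3) ^ S.card := pow_mul _ _ _
        _ < ((L + 1) ^ 4) ^ S.card := Nat.pow_lt_pow_left h34 (by omega)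
        _ = (L + 1) ^ (4 * S.card) := (pow_mul _ _ _).symm
        _ ≤ (L + 1) ^ (m * S.card * 2) := Nat.pow_le_pow_right (by omega) (by nlinarith)
    exact lt_of_pow_lt_pow_left₀ 2 (Nat.zero_le _) hsq
  obtain ⟨x, hx, y, hy, hne, hxy⟩ :=
    Finset.exists_ne_map_eq_of_card_lt_of_maps_to hcount hmap
  set z : Fin m × S → ℤ := x - y with hz
  have hzero : ∑ a, z a • v a = 0 := by
    by_contra h0
    obtain ⟨k, hk1, hk2⟩ := hord z h0
    have h1 := (coeff_u_mul (u := u) hk1).2
    have h2 : (u * rp (∑ a, z a • v a)).coeff k = val x k - val y k := by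
      simp only [rp, Polynomial.map_sum, Finset.mul_sum, Polynomial.finsetSum_coeff,
        zsmul_eq_mul, Polynomial.map_mul, Polynomial.map_intCast, hval,
        ← Finset.sum_sub_distrib]
      refine Finset.sum_congr rfl fun a _ => ?_
      rw [mul_left_comm u, Polynomial.coeff_intCast_mul]
      simp [hz, hM]
      ring
    have hfl := congrFun hxy k
    have h3 := Int.abs_sub_lt_one_of_floor_eq_floor hfl
    rw [← sub_div, ← sub_mul, abs_div, abs_mul, abs_of_pos hκ0, abs_two,
      div_lt_one hκ0, ← h2, h1, abs_mul] at h3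
    have h4 : (1 : ℝ) ≤ |((∑ a, z a • v a).coeff k : ℝ)| := by
      rw [← Int.cast_abs]
      exact_mod_cast Int.one_le_abs hk2
    nlinarith [abs_nonneg (u.coeff 0)]
  refine ⟨fun i => ∑ s : S, Polynomial.monomial (s : ℕ) (z (i, s)), ?_, ?_, ?_⟩
  · obtain ⟨⟨i, s⟩, his⟩ := Function.ne_iff.mp hne
    refine ⟨i, fun h => his ?_⟩
    have h' := congrArg (fun P : ℤ[X] => P.coeff (s : ℕ)) h
    simp only [Polynomial.finsetSum_coeff, Polynomial.coeff_monomial, Polynomial.coeff_zero]
      at h'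
    rw [Finset.sum_eq_single s (fun b _ hb => if_neg fun h => hb (Subtype.ext h))
      (fun h => absurd (Finset.mem_univ s) h), if_pos rfl] at h'
    simp only [hz, Pi.sub_apply] at h'
    omega
  · rw [← hzero, Fintype.sum_prod_type]
    refine Finset.sum_congr rfl fun i _ => ?_
    rw [Finset.sum_mul]
    refine Finset.sum_congr rfl fun s _ => ?_
    rw [hv, zsmul_eq_mul, ← Polynomial.C_mul_X_pow_eq_monomial,
      show ((z (i, s) : ℤ) : ℤ[X]) = Polynomial.C (z (i, s)) from
        (map_intCast (Polynomial.C : ℤ →+* ℤ[X]) (z (i, s))).symm]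
    ring
  · intro i
    have hco : ∀ k, (∑ s : S, Polynomial.monomial (s : ℕ) (z (i, s))).coeff k =
        if h : k ∈ S then z (i, ⟨k, h⟩) else 0 := by
      intro k
      simp only [Polynomial.finsetSum_coeff, Polynomial.coeff_monomial]
      split_ifs with h
      · rw [Finset.sum_eq_single ⟨k, h⟩ (fun b _ hb => if_neg fun h' => hb (Subtype.ext h'))
          (fun h' => absurd (Finset.mem_univ _) h'), if_pos rfl]
      · exact Finset.sum_eq_zero fun s _ => if_neg fun (h' : (s : ℕ) = k) => h (h' ▸ s.2)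
    refine ⟨fun k hk => ?_, fun k => ?_⟩
    · rw [Polynomial.mem_support_iff, hco] at hk
      by_contra h
      rw [dif_neg h] at hk
      exact hk rfl
    · rw [hco]
      split_ifs with h
      · simp only [hbox, Fintype.mem_piFinset, Finset.mem_Icc] at hx hy
        have := hx (i, ⟨k, h⟩)
        have := hy (i, ⟨k, h⟩)
        simp only [hz, Pi.sub_apply]
        omega
      · simp

/-- The mass increment half of a step. -/
theorem step_large {m : ℕ} {κ : ℝ} (hκ0 : 0 < κ) (hκ1 : κ ≤ 1)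
    (f : Fin m → ℝ[X]) (hf : ∀ T, mass f T ≤ 1) (S W J : Finset ℕ) (hS : S.Nonempty)
    (hgr : 5 * (S + W).card ≤ 6 * S.card) (hsmall : ¬ J.card * 2 < 3 * S.card)
    (M : Matrix J (Fin m × S) ℝ) (hMentry : ∀ (j : J) (a : Fin m × S),
      M j a = if (a.2 : ℕ) ≤ j then (f a.1).coeff ((j : ℕ) - a.2) else 0)
    (d2 : ℝ) (hlow2 : κ ^ (2 * J.card) ≤ d2) (hrows : d2 ≤ ∏ j, ∑ a, M j a ^ 2)
    (hcard : J.card ≤ m * S.card) (D : ℕ) (hJD : ∀ k : J, (k : ℕ) ≤ D) :
    ∃ X : Finset ℕ, Disjoint W X ∧ X.card ≤ m * S.card ∧ (∀ x ∈ X, x ≤ D) ∧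
        gain m κ ≤ mass f X := by
  classical
  have hSpos : 0 < S.card := hS.card_pos
  have hgr' : 10 * (J.filter (· ∈ S + W)).card ≤ 12 * S.card := by
    have : (J.filter (· ∈ S + W)).card ≤ (S + W).card :=
      Finset.card_le_card fun x hx => (Finset.mem_filter.mp hx).2
    omega
  set β : ℝ := gain m κ with hβdef
  have hβ : 0 < β := gain_pos hκ0
  set pu : J → Prop := fun j => (j : ℕ) ∈ S + W with hpu
  set row : J → ℝ := fun j => ∑ a, M j a ^ 2 with hrow
  have hrow0 : ∀ j, 0 ≤ row j := fun j => Finset.sum_nonneg fun _ _ => sq_nonneg _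
  set R : Finset ℕ → S → Finset ℕ := fun Z s => (Z.filter (fun j => (s : ℕ) ≤ j)).image
    (fun j => j - (s : ℕ)) with hR
  have hrowsum : ∀ Z : Finset J, ∑ j ∈ Z, row j =
      ∑ s : S, mass f (R (Z.map (Function.Embedding.subtype _)) s) := by
    intro Z
    simp only [hrow, mass, hR]
    simp only [Fintype.sum_prod_type]
    rw [Finset.sum_comm]
    conv_rhs => rw [Finset.sum_comm]
    refine Finset.sum_congr rfl fun i _ => ?_
    rw [Finset.sum_comm]
    refine Finset.sum_congr rfl fun s _ => ?_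
    rw [Finset.sum_image, Finset.sum_filter, Finset.sum_map]
    · refine Finset.sum_congr rfl fun j _ => ?_
      rw [hMentry]
      by_cases hle : (s : ℕ) ≤ (j : ℕ)
      · rw [if_pos hle]
        exact (if_pos hle).symm
      · rw [if_neg hle, zero_pow (two_ne_zero)]
        exact (if_neg hle).symm
    · intro a ha b hb hab
      simp only [Finset.coe_filter, Set.mem_setOf_eq] at ha hb
      simp only at hab
      omega
  set Za : Finset J := Finset.univ.filter pu with hZa
  set Zb : Finset J := Finset.univ.filter (fun j => ¬ pu j) with hZb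
  have hza : ∑ j ∈ Za, row j ≤ S.card := by
    rw [hrowsum]
    calc _ ≤ ∑ _s : S, (1 : ℝ) := Finset.sum_le_sum fun s _ => hf _
      _ = S.card := by simp
  have hab : Za.card + Zb.card = J.card := by
    rw [hZa, hZb, Finset.card_filter_add_card_filter_not, Finset.card_univ, Fintype.card_coe]
  have hZacard : Za.card = (J.filter (· ∈ S + W)).card := by
    rw [hZa, ← Finset.card_map (Function.Embedding.subtype _)]
    congr 1
    ext x
    simp [hpu, and_comm]
  have hb : 3 * S.card ≤ 10 * Zb.card := by omega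
  set τ : ℝ := ∑ j ∈ Zb, row j with hτ
  have hprod : ∏ j, row j ≤ Real.exp (S.card : ℝ) * (β ^ Zb.card * Real.exp (τ / β)) := by
    rw [← Finset.prod_filter_mul_prod_filter_not Finset.univ pu, ← hZa, ← hZb]
    refine mul_le_mul ?_ ?_ (Finset.prod_nonneg fun j _ => hrow0 j) (Real.exp_pos _).le
    · calc ∏ j ∈ Za, row j ≤ ∏ j ∈ Za, Real.exp (row j) :=
            Finset.prod_le_prod (fun j _ => hrow0 j) fun j _ => by
              have := Real.add_one_le_exp (row j)
              linarith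
        _ = Real.exp (∑ j ∈ Za, row j) := (Real.exp_sum _ _).symm
        _ ≤ _ := Real.exp_le_exp.mpr hza
    · calc ∏ j ∈ Zb, row j ≤ ∏ j ∈ Zb, (β * Real.exp (row j / β)) :=
            Finset.prod_le_prod (fun j _ => hrow0 j) fun j _ => by
              have := Real.add_one_le_exp (row j / β)
              have h1 : β * (row j / β) = row j := by field_simp
              nlinarith
        _ = β ^ Zb.card * Real.exp (τ / β) := by
            rw [Finset.prod_mul_distrib, Finset.prod_const, ← Real.exp_sum, hτ, Finset.sum_div]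
  have hkey : β * S.card ≤ τ := by
    by_contra hlt
    push Not at hlt
    have h1 : (κ ^ (2 * m)) ^ S.card ≤ d2 := by
      refine le_trans ?_ hlow2
      rw [← pow_mul]
      exact pow_le_pow_of_le_one hκ0.le hκ1 (by nlinarith)
    set γ : ℝ := κ ^ m / 8 with hγ
    have hγ0 : 0 < γ := by rw [hγ]; positivity
    have hγ1 : γ ≤ 1 := by
      rw [hγ]
      have := pow_le_one₀ (n := m) hκ0.le hκ1
      linarith
    have h2 : β ^ Zb.card ≤ (γ ^ 3) ^ S.card := by
      rw [hβdef, gain, ← hγ, ← pow_mul, ← pow_mul]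
      exact pow_le_pow_of_le_one hγ0.le hγ1 hb
    have h3 : Real.exp (τ / β) ≤ Real.exp 1 ^ S.card := by
      rw [← Real.exp_nat_mul, mul_one]
      refine Real.exp_le_exp.mpr ?_
      rw [div_le_iff₀ hβ]
      linarith
    have h4 : Real.exp (S.card : ℝ) = Real.exp 1 ^ S.card := by
      rw [← Real.exp_nat_mul, mul_one]
    have h5 : (κ ^ (2 * m)) ^ S.card ≤ (Real.exp 1 * (γ ^ 3 * Real.exp 1)) ^ S.card := by
      calc _ ≤ d2 := h1
        _ ≤ ∏ j, row j := hrows
        _ ≤ _ := hprod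
        _ ≤ Real.exp 1 ^ S.card * ((γ ^ 3) ^ S.card * Real.exp 1 ^ S.card) := by
            rw [h4]
            gcongr
        _ = _ := by rw [mul_pow, mul_pow]
    have h6 : Real.exp 1 * (γ ^ 3 * Real.exp 1) < κ ^ (2 * m) := by
      have he := Real.exp_one_lt_three
      have he0 := Real.exp_pos 1
      have hk : 0 < κ ^ m := pow_pos hκ0 m
      have hk1 : κ ^ m ≤ 1 := pow_le_one₀ hκ0.le hκ1
      rw [hγ, mul_comm 2 m, pow_mul]
      have : Real.exp 1 * Real.exp 1 ≤ 9 := by nlinarith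
      have h7 : (κ ^ m / 8) ^ 3 * (Real.exp 1 * Real.exp 1) ≤ (κ ^ m) ^ 3 / 512 * 9 := by
        rw [div_pow]
        norm_num
        gcongr
      nlinarith [pow_pos hk 2, pow_pos hk 3]
    exact absurd h5 (not_le.mpr (pow_lt_pow_left₀ h6 (by positivity) (by omega)))
  rw [hτ, hrowsum] at hkey
  have : Nonempty S := hS.to_subtype
  obtain ⟨s, -, hs⟩ := Finset.exists_le_of_sum_le (Finset.univ_nonempty (α := S))
    (f := fun _ => β) (by simpa [mul_comm] using hkey)
  refine ⟨_, ?_, ?_, ?_, hs⟩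
  · rw [Finset.disjoint_right]
    intro x hx hxW
    simp only [hR, Finset.mem_image, Finset.mem_filter, Finset.mem_map, hZb, hpu,
      Finset.mem_univ, true_and, Function.Embedding.coe_subtype] at hx
    obtain ⟨j, ⟨⟨j', hj', rfl⟩, hsj⟩, rfl⟩ := hx
    refine hj' ?_
    have := Finset.add_mem_add s.2 hxW
    rwa [Nat.add_sub_cancel' hsj] at this
  · refine le_trans (le_trans Finset.card_image_le (Finset.card_filter_le _ _)) ?_
    rw [Finset.card_map]
    exact le_trans (Finset.card_le_univ _) (by simpa using hcard)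
  · intro x hx
    simp only [hR, Finset.mem_image, Finset.mem_filter, Finset.mem_map,
      Function.Embedding.coe_subtype] at hx
    obtain ⟨j, ⟨⟨j', -, rfl⟩, -⟩, rfl⟩ := hx
    exact le_trans (Nat.sub_le _ _) (hJD j')

theorem step {m : ℕ} (hm : 2 ≤ m) {κ : ℝ} (hκ0 : 0 < κ) (hκ1 : κ ≤ 1) (A : Fin m → ℤ[X])
    (n : ℕ) (hA : ∀ i, (A i).natDegree ≤ n) (u : ℝ[X]) (hu : κ ≤ |u.coeff 0|)
    (hf : ∀ T, mass (fun i => u * rp (A i)) T ≤ 1) (S W : Finset ℕ) (hS : S.Nonempty)
    (hgr : 5 * (S + W).card ≤ 6 * S.card) :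
    (∃ P : Fin m → ℤ[X], (∃ i, P i ≠ 0) ∧ ∑ i, P i * A i = 0 ∧
        ∀ i, (P i).support ⊆ S ∧ ∀ k, ((P i).coeff k).natAbs ≤ coefBd m S.card κ) ∨
      ∃ X : Finset ℕ, Disjoint W X ∧ X.card ≤ m * S.card ∧ (∀ x ∈ X, x ≤ S.sup id + n) ∧
        gain m κ ≤ mass (fun i => u * rp (A i)) X := by
  classical
  set f : Fin m → ℝ[X] := fun i => u * rp (A i) with hfdef
  set v : Fin m × S → ℤ[X] := fun a => X ^ (a.2 : ℕ) * A a.1 with hv
  obtain ⟨J, e, g, c, heg, hvc, hek, hord, hJD⟩ := exists_triangular v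
  set M : Matrix J (Fin m × S) ℝ := fun j a => (u * rp (v a)).coeff j with hM
  set T : Matrix J J ℝ := fun j k => (u * rp (e k)).coeff j with hT
  have hlow : ∀ j k : J, (j : ℕ) < k → T j k = 0 := fun j k h =>
    (coeff_u_mul (hek k).1).1 j h
  have hdiag : ∀ k : J, T k k = u.coeff 0 * ((e k).coeff k : ℝ) := fun k =>
    (coeff_u_mul (hek k).1).2
  have hdet : T.det = ∏ k, T k k := by
    rw [← Matrix.det_transpose]
    exact Matrix.det_of_isUpperTriangular (fun j k h => hlow k j h)
  have habs : ∀ k : J, κ ≤ |T k k| := by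
    intro k
    rw [hdiag, abs_mul]
    have h1 : (1 : ℝ) ≤ |((e k).coeff k : ℝ)| := by
      rw [← Int.cast_abs]
      exact_mod_cast Int.one_le_abs (hek k).2
    calc κ ≤ |u.coeff 0| := hu
      _ ≤ |u.coeff 0| * |((e k).coeff k : ℝ)| := le_mul_of_one_le_right (abs_nonneg _) h1
  have hdet0 : T.det ≠ 0 := by
    rw [hdet]
    refine Finset.prod_ne_zero_iff.mpr fun k _ h => ?_
    have := habs k
    rw [h, abs_zero] at this
    linarith
  have hMT : M = T * c.map (fun x : ℤ => (x : ℝ)) := by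
    ext j a
    simp only [hM, Matrix.mul_apply, hT, Matrix.map_apply]
    rw [hvc a]
    simp only [rp, Polynomial.map_sum, Finset.mul_sum, Polynomial.finsetSum_coeff,
      zsmul_eq_mul, Polynomial.map_mul, Polynomial.map_intCast]
    refine Finset.sum_congr rfl fun k _ => ?_
    rw [mul_left_comm, Polynomial.coeff_intCast_mul, mul_comm]
    simp
  have hMg : M * g.map (fun x : ℤ => (x : ℝ)) = T := by
    ext j k
    simp only [hM, Matrix.mul_apply, hT, Matrix.map_apply]
    rw [heg k]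
    simp only [rp, Polynomial.map_sum, Finset.mul_sum, Polynomial.finsetSum_coeff,
      zsmul_eq_mul, Polynomial.map_mul, Polynomial.map_intCast]
    refine Finset.sum_congr rfl fun a _ => ?_
    rw [mul_left_comm u, Polynomial.coeff_intCast_mul, mul_comm]
    simp
  have hcg : c * g = 1 := by
    have h1 : T * ((c * g).map (fun x : ℤ => (x : ℝ))) = T * 1 := by
      rw [mul_one]
      have hmm : (c * g).map (fun x : ℤ => (x : ℝ)) =
          c.map (fun x : ℤ => (x : ℝ)) * g.map (fun x : ℤ => (x : ℝ)) := by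
        ext i j
        simp [Matrix.mul_apply, Matrix.map_apply]
      rw [hmm, ← Matrix.mul_assoc, ← hMT, hMg]
    have hunit : IsUnit T := (Matrix.isUnit_iff_isUnit_det _).mpr (isUnit_iff_ne_zero.mpr hdet0)
    have h3 := hunit.mul_left_cancel h1
    ext i j
    have h4 := congrFun (congrFun h3 i) j
    rw [Matrix.map_apply, Matrix.one_apply] at h4
    rw [Matrix.one_apply]
    split_ifs with h <;> simp [h] at h4 ⊢ <;> exact_mod_cast h4
  obtain ⟨hrows, hcard⟩ := sq_det_le_prod_rows T c g hcg hdet0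
  rw [← hMT] at hrows
  simp only [Fintype.card_prod, Fintype.card_fin, Fintype.card_coe] at hcard
  have hMentry : ∀ (j : J) (a : Fin m × S),
      M j a = if (a.2 : ℕ) ≤ j then (f a.1).coeff ((j : ℕ) - a.2) else 0 := by
    intro j a
    simp only [hM, hv, rp, Polynomial.map_mul, Polynomial.map_pow, Polynomial.map_X, hfdef]
    rw [mul_left_comm, Polynomial.coeff_X_pow_mul']
  have hfle : ∀ i x, |(f i).coeff x| ≤ 1 := by
    intro i x
    have h1 := hf {x}
    simp only [mass, Finset.sum_singleton] at h1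
    have h2 : (f i).coeff x ^ 2 ≤ ∑ i, (f i).coeff x ^ 2 :=
      Finset.single_le_sum (f := fun i => (f i).coeff x ^ 2) (fun _ _ => sq_nonneg _)
        (Finset.mem_univ i)
    exact abs_le_one_iff_mul_self_le_one.mpr (by nlinarith)
  have hM1 : ∀ j a, |M j a| ≤ 1 := by
    intro j a
    rw [hMentry]
    split_ifs
    · exact hfle _ _
    · simp
  have hlow2 : κ ^ (2 * J.card) ≤ T.det ^ 2 := by
    rw [hdet, ← sq_abs (∏ k, T k k), Finset.abs_prod, mul_comm, pow_mul]
    refine pow_le_pow_left₀ (pow_nonneg hκ0.le _) ?_ 2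
    calc κ ^ J.card = ∏ _k : J, κ := by simp
      _ ≤ _ := Finset.prod_le_prod (fun _ _ => hκ0.le) fun k _ => habs k
  have hDle : ∀ k : J, (k : ℕ) ≤ S.sup id + n := by
    intro k
    refine le_trans (hJD k) (Finset.sup_le fun a _ => ?_)
    calc (v a).natDegree ≤ (X ^ (a.2 : ℕ) : ℤ[X]).natDegree + (A a.1).natDegree :=
          Polynomial.natDegree_mul_le
      _ ≤ S.sup id + n := by
          refine Nat.add_le_add ?_ (hA _)
          rw [Polynomial.natDegree_X_pow]
          exact Finset.le_sup (f := id) a.2.2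
  by_cases hsmall : J.card * 2 < 3 * S.card
  · exact Or.inl (step_small hm hκ0 A u hu S hS.card_pos v hv J hord M hM hM1 hsmall)
  · exact Or.inr (step_large hκ0 hκ1 f hf S W J hS hgr hsmall M hMentry (T.det ^ 2) hlow2
      hrows hcard _ hDle)

theorem doubling (w : ℕ) : ∃ M : ℕ, ∀ W : Finset ℕ, 0 ∈ W → W.card ≤ w →
    ∃ S : Finset ℕ, S.Nonempty ∧ 5 * (S + W).card ≤ 6 * S.card ∧ S.card ≤ (M + 1) ^ w ∧
      S.sup id ≤ M * W.sup id := by
  have hlim : Filter.Tendsto (fun n : ℕ => ((n + 1 : ℕ) : ℝ) ^ w / (6 / 5 : ℝ) ^ (n + 1))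
      Filter.atTop (nhds 0) :=
    (tendsto_pow_const_div_const_pow_of_one_lt w (by norm_num : (1 : ℝ) < 6 / 5)).comp
      (Filter.tendsto_add_atTop_nat 1)
  obtain ⟨M, hM⟩ := (hlim.eventually (gt_mem_nhds (by norm_num : (0 : ℝ) < 5 / 6))).exists
  refine ⟨M, fun W h0 hw => ?_⟩
  classical
  let Sn : ℕ → Finset ℕ := fun k => Nat.rec {0} (fun _ S => S + W) k
  have hSn0 : Sn 0 = {0} := rfl
  have hSnS : ∀ k, Sn (k + 1) = Sn k + W := fun _ => rfl
  have hne : ∀ k, (Sn k).Nonempty := by
    intro k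
    induction k with
    | zero => exact ⟨0, by simp [hSn0]⟩
    | succ k ih => rw [hSnS]; exact ih.add ⟨0, h0⟩
  have hrep : ∀ k, ∀ x ∈ Sn k, ∃ c : W → ℕ, (∑ a, c a) ≤ k ∧ x = ∑ a, c a * (a : ℕ) := by
    intro k
    induction k with
    | zero => intro x hx; simp [hSn0] at hx; subst hx; exact ⟨0, by simp, by simp⟩
    | succ k ih =>
      intro x hx
      rw [hSnS, Finset.mem_add] at hx
      obtain ⟨y, hy, z, hz, rfl⟩ := hx
      obtain ⟨c, hc1, hc2⟩ := ih y hy
      refine ⟨fun a => c a + if a = ⟨z, hz⟩ then 1 else 0, ?_, ?_⟩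
      · rw [Finset.sum_add_distrib, Finset.sum_ite_eq' Finset.univ,
          if_pos (Finset.mem_univ _)]
        omega
      · simp [add_mul, Finset.sum_add_distrib, ite_mul, hc2]
  have hcardle : ∀ k, (Sn k).card ≤ (k + 1) ^ w := by
    intro k
    have hsub : Sn k ⊆ (Fintype.piFinset fun _ : W => Finset.range (k + 1)).image
        (fun c : W → ℕ => ∑ a : W, c a * (a : ℕ)) := by
      intro x hx
      obtain ⟨c, hc1, hc2⟩ := hrep k x hx
      refine Finset.mem_image.mpr ⟨c, Fintype.mem_piFinset.mpr fun a => ?_, hc2.symm⟩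
      have := Finset.single_le_sum (f := c) (fun _ _ => Nat.zero_le _) (Finset.mem_univ a)
      exact Finset.mem_range.mpr (by omega)
    refine le_trans (Finset.card_le_card hsub) (le_trans Finset.card_image_le ?_)
    simpa using Nat.pow_le_pow_right (by omega : 0 < k + 1) hw
  have hsup : ∀ k, (Sn k).sup id ≤ k * W.sup id := by
    intro k
    refine Finset.sup_le fun x hx => ?_
    obtain ⟨c, hc1, hc2⟩ := hrep k x hx
    calc id x = ∑ a, c a * (a : ℕ) := hc2
      _ ≤ ∑ a, c a * W.sup id :=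
          Finset.sum_le_sum fun a _ => Nat.mul_le_mul_left _ (Finset.le_sup (f := id) a.2)
      _ = (∑ a, c a) * W.sup id := (Finset.sum_mul _ _ _).symm
      _ ≤ _ := Nat.mul_le_mul_right _ hc1
  by_contra hcon
  push Not at hcon
  have hgrow : ∀ k, k ≤ M → ((6 / 5 : ℝ)) ^ k ≤ (Sn k).card := by
    intro k
    induction k with
    | zero => simp [hSn0]
    | succ k ih =>
      intro hk
      have h1 := ih (by omega)
      have h2 : 6 * (Sn k).card < 5 * (Sn k + W).card := by
        by_contra h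
        push Not at h
        have := hcon (Sn k) (hne k) h
          (le_trans (hcardle k) (Nat.pow_le_pow_left (by omega) _))
        exact absurd (le_trans (hsup k) (Nat.mul_le_mul_right _ (by omega))) (not_le.mpr this)
      rw [← hSnS] at h2
      have h3 : (6 : ℝ) * (Sn k).card ≤ 5 * (Sn (k + 1)).card := by exact_mod_cast h2.le
      rw [pow_succ]
      nlinarith [pow_pos (by norm_num : (0 : ℝ) < 6 / 5) k]
  have h1 := hgrow M le_rfl
  have h2 : ((Sn M).card : ℝ) ≤ ((M + 1 : ℕ) : ℝ) ^ w := by exact_mod_cast hcardle M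
  rw [pow_succ, div_lt_iff₀ (by positivity)] at hM
  have h3 : (0 : ℝ) < (6 / 5) ^ M := by positivity
  nlinarith

/-- **Sparse relation theorem.** -/
theorem sparse_relation {m : ℕ} (hm : 2 ≤ m) {κ : ℝ} (hκ0 : 0 < κ) (hκ1 : κ ≤ 1) :
    ∃ N : ℕ, ∀ (A : Fin m → ℤ[X]) (n : ℕ), (∀ i, (A i).natDegree ≤ n) →
      ∀ u : ℝ[X], κ ≤ |u.coeff 0| → (∀ T, mass (fun i => u * rp (A i)) T ≤ 1) →
      ∃ P : Fin m → ℤ[X], (∃ i, P i ≠ 0) ∧ ∑ i, P i * A i = 0 ∧ ∀ i, Bdd N n (P i) := by
  classical
  have hiter : ∀ k : ℕ, ∃ N : ℕ, ∀ (A : Fin m → ℤ[X]) (n : ℕ), (∀ i, (A i).natDegree ≤ n) →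
      ∀ u : ℝ[X], κ ≤ |u.coeff 0| → (∀ T, mass (fun i => u * rp (A i)) T ≤ 1) →
      (∃ P : Fin m → ℤ[X], (∃ i, P i ≠ 0) ∧ ∑ i, P i * A i = 0 ∧ ∀ i, Bdd N n (P i)) ∨
      ∃ W : Finset ℕ, 0 ∈ W ∧ W.card ≤ N ∧ W.sup id ≤ N * (n + 1) ∧
        (k : ℝ) * gain m κ ≤ mass (fun i => u * rp (A i)) W := by
    intro k
    induction k with
    | zero =>
      refine ⟨1, fun A n _ u _ _ => Or.inr ⟨{0}, by simp, by simp, by simp, ?_⟩⟩
      simp only [Nat.cast_zero, zero_mul]
      exact Finset.sum_nonneg fun _ _ => Finset.sum_nonneg fun _ _ => sq_nonneg _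
    | succ k ih =>
      obtain ⟨N, hN⟩ := ih
      obtain ⟨M, hM⟩ := doubling N
      set B : ℕ := (M + 1) ^ N with hB
      set N' : ℕ := N + m * B + M * N + 1 + B + coefBd m B κ with hN'
      refine ⟨N', fun A n hA u hu hf => ?_⟩
      rcases hN A n hA u hu hf with ⟨P, h1, h2, h3⟩ | ⟨W, h0, hc, hsW, hmW⟩
      · refine Or.inl ⟨P, h1, h2, fun i => ⟨le_trans (h3 i).1 (by omega),
          fun j => le_trans ((h3 i).2.1 j) (by omega),
          le_trans (h3 i).2.2 (Nat.mul_le_mul_right _ (by omega))⟩⟩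
      obtain ⟨S, hSne, hgr, hSc, hSsup⟩ := hM W h0 hc
      have hS' : S.sup id ≤ M * N * (n + 1) := by
        refine le_trans hSsup ?_
        rw [mul_assoc]
        exact Nat.mul_le_mul_left _ hsW
      rcases step hm hκ0 hκ1 A n hA u hu hf S W hSne hgr with
        ⟨P, h1, h2, h3⟩ | ⟨X, hdisj, hXc, hXs, hXm⟩
      · refine Or.inl ⟨P, h1, h2, fun i => ⟨?_, fun j => ?_, ?_⟩⟩
        · exact le_trans (Finset.card_le_card (h3 i).1) (by omega)
        · refine le_trans ((h3 i).2 j) (le_trans ?_ (show coefBd m B κ ≤ N' by omega))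
          unfold coefBd
          gcongr
        · by_cases hP : P i = 0
          · simp [hP]
          · have := Finset.le_sup (f := id)
              ((h3 i).1 (Polynomial.natDegree_mem_support_of_nonzero hP))
            refine le_trans this (le_trans hS' ?_)
            exact Nat.mul_le_mul_right _ (by omega)
      · refine Or.inr ⟨W ∪ X, Finset.mem_union_left _ h0, ?_, ?_, ?_⟩
        · refine le_trans (Finset.card_union_le _ _) ?_
          have : X.card ≤ m * B := le_trans hXc (Nat.mul_le_mul_left _ hSc)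
          omega
        · rw [Finset.sup_union]
          refine sup_le (le_trans hsW (Nat.mul_le_mul_right _ (by omega)))
            (Finset.sup_le fun x hx => ?_)
          refine le_trans (hXs x hx) ?_
          calc S.sup id + n ≤ M * N * (n + 1) + 1 * (n + 1) := by omega
            _ = (M * N + 1) * (n + 1) := by ring
            _ ≤ _ := Nat.mul_le_mul_right _ (by omega)
        · rw [mass_union _ hdisj]
          push_cast
          linarith
  have hg := gain_pos (m := m) hκ0
  obtain ⟨k, hk⟩ := exists_nat_gt (1 / gain m κ)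
  rw [div_lt_iff₀ hg] at hk
  obtain ⟨N, hN⟩ := hiter k
  refine ⟨N, fun A n hA u hu hf => ?_⟩
  rcases hN A n hA u hu hf with h | ⟨W, -, -, -, hW⟩
  · exact h
  · exact absurd (le_trans hW (hf W)) (not_le.mpr hk)

end Vale.Agent.P114
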